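import Vale.Agent.P090.Defs

/-! (B) A concrete consequence of the bounded approximation property of `F(M)`. -/

namespace Vale.Agent.P090

open scoped NNReal

namespace BapAux

variable {M : Type*} [MetricSpace M]

theorem delta_apply (o x : M) (f : Lip0 o) : delta o x f = f x := rfl

theorem norm_delta_sub_le (o x y : M) : ‖delta o x - delta o y‖ ≤ dist x y := by
  refine ContinuousLinearMap.opNorm_le_bound _ dist_nonneg fun f => ?_
  have h := Lip0.abs_sub_le f x y
  have e : (delta o x - delta o y) f = f x - f y := rfl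
  rw [e, Lip0.norm_def, Real.norm_eq_abs, mul_comm]
  exact h

theorem delta_self (o : M) : delta o o = 0 := by
  ext f
  exact Lip0.apply_base f

/-- `δ_x` as an element of the Lipschitz-free space. -/
noncomputable def dl (o x : M) : LipFree o :=
  ⟨delta o x, Submodule.le_topologicalClosure _ (Submodule.subset_span ⟨x, rfl⟩)⟩

theorem norm_dl_sub_le (o x y : M) : ‖dl o x - dl o y‖ ≤ dist x y := norm_delta_sub_le o x y

theorem dl_self (o : M) : dl o o = 0 := Subtype.ext (delta_self o)

theorem norm_dl_le (o x : M) : ‖dl o x‖ ≤ dist x o := by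
  have h := norm_delta_sub_le o x o
  rw [delta_self, sub_zero] at h
  exact h

/-- The finite combination of evaluations attached to a finitely supported function. -/
noncomputable def comb (o : M) (v : M →₀ ℝ) : StrongDual ℝ (Lip0 o) :=
  v.sum fun z a => a • delta o z

theorem comb_apply (o : M) (v : M →₀ ℝ) (f : Lip0 o) :
    comb o v f = v.sum fun z a => a * f z := by
  unfold comb Finsupp.sum
  rw [sum_apply]
  rfl

/-- every element of `F(M)` is close to a finite combination of evaluations. -/
theorem exists_comb (o : M) (x : LipFree o) {ε : ℝ} (hε : 0 < ε) :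
    ∃ v : M →₀ ℝ, ‖(x : StrongDual ℝ (Lip0 o)) - comb o v‖ < ε := by
  have hx : (x : StrongDual ℝ (Lip0 o)) ∈
      closure ((Submodule.span ℝ (Set.range (delta o)) : Submodule ℝ (StrongDual ℝ (Lip0 o))) :
        Set (StrongDual ℝ (Lip0 o))) := x.2
  obtain ⟨y, hy, hxy⟩ := Metric.mem_closure_iff.1 hx ε hε
  obtain ⟨v, hv⟩ := (Finsupp.mem_span_range_iff_exists_finsupp).1 hy
  refine ⟨v, ?_⟩
  have : comb o v = y := hv
  rw [this, ← dist_eq_norm]
  exact hxy

end BapAux

open BapAux

theorem bap_concrete {M : Type*} [MetricSpace M] (o : M) {lam : ℝ} (hlam : 0 ≤ lam)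
    (h : HasBAPWith (LipFree o) lam) (B : Set M) (hB : Bornology.IsBounded B)
    (E : Set M) (hE : E.Finite) {ε : ℝ} (hε : 0 < ε) :
    ∃ (Z : Finset M) (v : M → M →₀ ℝ),
      (∀ p ∈ B, (v p).support ⊆ Z) ∧
      (∀ p ∈ B, (v p).sum (fun _ a => a) = 1) ∧
      (∀ (f : M → ℝ) (K : ℝ), 0 ≤ K → (∀ x y, |f x - f y| ≤ K * dist x y) →
        (∀ p ∈ B, ∀ q ∈ B, |(v p).sum (fun z a => a * f z) - (v q).sum (fun z a => a * f z)|
            ≤ K * (lam * dist p q + ε)) ∧
        (∀ e ∈ E, e ∈ B → |(v e).sum (fun z a => a * f z) - f e| ≤ K * ε)) := by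
  classical
  obtain ⟨T, hfin, hT, hTE⟩ := h (dl o '' E) (hE.image _).isCompact (ε / 2) (by positivity)
  have hfd : FiniteDimensional ℝ (LinearMap.range (T : LipFree o →ₗ[ℝ] LipFree o)) := hfin
  -- the points `T δ_p` in the range
  let τ : M → LinearMap.range (T : LipFree o →ₗ[ℝ] LipFree o) := fun p => ⟨T (dl o p), ⟨dl o p, rfl⟩⟩
  have hproper : ProperSpace (LinearMap.range (T : LipFree o →ₗ[ℝ] LipFree o)) :=
    FiniteDimensional.proper ℝ _
  obtain ⟨R, hR⟩ := hB.subset_closedBall o
  have hbd : Bornology.IsBounded (τ '' B) := by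
    refine (Metric.isBounded_closedBall (x := (0 : LinearMap.range (T : LipFree o →ₗ[ℝ] LipFree o)))
      (r := lam * R)).subset ?_
    rintro _ ⟨p, hp, rfl⟩
    rw [mem_closedBall_zero_iff]
    have h1 : ‖τ p‖ = ‖T (dl o p)‖ := rfl
    rw [h1]
    have h2 : dist p o ≤ R := hR hp
    calc ‖T (dl o p)‖ ≤ ‖T‖ * ‖dl o p‖ := T.le_opNorm _
      _ ≤ lam * R := by
        refine mul_le_mul hT ((norm_dl_le o p).trans h2) (norm_nonneg (dl o p)) hlam
  have htb : TotallyBounded (τ '' B) :=
    (hbd.isCompact_closure.totallyBounded).subset subset_closure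
  obtain ⟨t, htf, ht⟩ := Metric.totallyBounded_iff.1 htb (ε / 4) (by positivity)
  -- finite combinations close to the points of the net
  have hc : ∀ y : LinearMap.range (T : LipFree o →ₗ[ℝ] LipFree o), ∃ v : M →₀ ℝ,
      ‖((y : LipFree o) : StrongDual ℝ (Lip0 o)) - comb o v‖ < ε / 4 := fun y =>
    exists_comb o (y : LipFree o) (by positivity)
  choose w hw using hc
  have hnear : ∀ p ∈ B, ∃ y ∈ t, ‖((T (dl o p) : LipFree o) : StrongDual ℝ (Lip0 o)) - comb o (w y)‖
      ≤ ε / 2 := by
    intro p hp
    have h1 : τ p ∈ ⋃ y ∈ t, Metric.ball y (ε / 4) := ht ⟨p, hp, rfl⟩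
    simp only [Set.mem_iUnion, exists_prop] at h1
    obtain ⟨y, hy, hpy⟩ := h1
    refine ⟨y, hy, ?_⟩
    rw [Metric.mem_ball, dist_eq_norm] at hpy
    have h2 : ‖((T (dl o p) : LipFree o) : StrongDual ℝ (Lip0 o)) -
        ((y : LipFree o) : StrongDual ℝ (Lip0 o))‖ < ε / 4 := hpy
    have h3 := hw y
    have h4 : ((T (dl o p) : LipFree o) : StrongDual ℝ (Lip0 o)) - comb o (w y) =
      (((T (dl o p) : LipFree o) : StrongDual ℝ (Lip0 o)) -
        ((y : LipFree o) : StrongDual ℝ (Lip0 o))) +
        (((y : LipFree o) : StrongDual ℝ (Lip0 o)) - comb o (w y)) := by abel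
    rw [h4]
    refine (norm_add_le _ _).trans ?_
    linarith
  choose! g hgt hg using hnear
  refine ⟨insert o (htf.toFinset.biUnion fun y => (w y).support),
    fun p => w (g p) + Finsupp.single o (1 - (w (g p)).sum fun _ a => a), ?_, ?_, ?_⟩
  · intro p hp
    refine Finsupp.support_add.trans ?_
    intro z hz
    rcases Finset.mem_union.1 hz with hz | hz
    · refine Finset.mem_insert_of_mem (Finset.mem_biUnion.2 ⟨g p, ?_, hz⟩)
      exact htf.mem_toFinset.2 (hgt p hp)
    · have := Finsupp.support_single_subset hz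
      rw [Finset.mem_singleton] at this
      rw [this]
      exact Finset.mem_insert_self _ _
  · intro p _
    rw [Finsupp.sum_add_index' (fun _ => rfl) (fun _ _ _ => rfl), Finsupp.sum_single_index rfl]
    ring
  · intro f K hK hf
    -- the normalised function
    let f0 : Lip0 o := ⟨fun x => f x - f o, by simp, K, fun x y => by
      have : f x - f o - (f y - f o) = f x - f y := by ring
      rw [this]; exact hf x y⟩
    have hf0 : ∀ x, f0 x = f x - f o := fun _ => rfl
    have hf0n : ‖f0‖ ≤ K := by
      rw [Lip0.norm_def]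
      refine Lip0.lipConst_le _ hK fun x y => ?_
      have : f0 x - f0 y = f x - f y := by rw [hf0, hf0]; ring
      rw [this]; exact hf x y
    have hval : ∀ p, (w (g p) + Finsupp.single o (1 - (w (g p)).sum fun _ a => a)).sum
        (fun z a => a * f z) = comb o (w (g p)) f0 + f o := by
      intro p
      rw [Finsupp.sum_add_index' (fun _ => by simp) (fun _ _ _ => by ring),
        Finsupp.sum_single_index (by simp), comb_apply]
      have h1 : ((w (g p)).sum fun z a => a * f z) =
          ((w (g p)).sum fun z a => a * f0 z) + ((w (g p)).sum fun _ a => a) * f o := by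
        unfold Finsupp.sum
        rw [Finset.sum_mul, ← Finset.sum_add_distrib]
        refine Finset.sum_congr rfl fun z _ => ?_
        show w (g p) z * f z = w (g p) z * (f z - f o) + w (g p) z * f o
        ring
      rw [h1]; ring
    constructor
    · intro p hp q hq
      rw [hval, hval]
      have h1 : comb o (w (g p)) f0 + f o - (comb o (w (g q)) f0 + f o) =
          (comb o (w (g p)) - comb o (w (g q))) f0 := by
        rw [sub_apply]; ring
      rw [h1, ← Real.norm_eq_abs]
      have h2 : ‖comb o (w (g p)) - comb o (w (g q))‖ ≤ lam * dist p q + ε := by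
        have h3 : comb o (w (g p)) - comb o (w (g q)) =
            -(((T (dl o p) : LipFree o) : StrongDual ℝ (Lip0 o)) - comb o (w (g p))) +
            (((T (dl o q) : LipFree o) : StrongDual ℝ (Lip0 o)) - comb o (w (g q))) +
            ((T (dl o p - dl o q) : LipFree o) : StrongDual ℝ (Lip0 o)) := by
          have h10 : ((T (dl o p - dl o q) : LipFree o) : StrongDual ℝ (Lip0 o)) =
              ((T (dl o p) : LipFree o) : StrongDual ℝ (Lip0 o)) -
              ((T (dl o q) : LipFree o) : StrongDual ℝ (Lip0 o)) :=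
            congrArg Subtype.val (map_sub T (dl o p) (dl o q))
          rw [h10]; abel
        have h4 : ‖((T (dl o p - dl o q) : LipFree o) : StrongDual ℝ (Lip0 o))‖ ≤
            lam * dist p q := by
          have h5 : ‖T (dl o p - dl o q)‖ ≤ ‖T‖ * ‖dl o p - dl o q‖ := T.le_opNorm _
          have h6 : ‖T‖ * ‖dl o p - dl o q‖ ≤ lam * dist p q :=
            mul_le_mul hT (norm_dl_sub_le o p q) (norm_nonneg (dl o p - dl o q)) hlam
          exact (le_trans (le_of_eq rfl) h5).trans h6
        rw [h3]
        refine (norm_add_le _ _).trans ?_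
        have h7 := norm_add_le
          (-(((T (dl o p) : LipFree o) : StrongDual ℝ (Lip0 o)) - comb o (w (g p))))
          (((T (dl o q) : LipFree o) : StrongDual ℝ (Lip0 o)) - comb o (w (g q)))
        rw [norm_neg] at h7
        have h8 := hg p hp
        have h9 := hg q hq
        linarith
      calc ‖(comb o (w (g p)) - comb o (w (g q))) f0‖
          ≤ ‖comb o (w (g p)) - comb o (w (g q))‖ * ‖f0‖ := ContinuousLinearMap.le_opNorm _ _
        _ ≤ (lam * dist p q + ε) * K := by
          refine mul_le_mul h2 hf0n (norm_nonneg _) ?_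
          have := mul_nonneg hlam (dist_nonneg (x := p) (y := q))
          linarith
        _ = K * (lam * dist p q + ε) := by ring
    · intro e he heB
      rw [hval]
      have h1 : comb o (w (g e)) f0 + f o - f e = (comb o (w (g e)) - delta o e) f0 := by
        rw [sub_apply, delta_apply, hf0]; ring
      rw [h1, ← Real.norm_eq_abs]
      have h2 : ‖comb o (w (g e)) - delta o e‖ ≤ ε := by
        have h3 : comb o (w (g e)) - delta o e =
            -(((T (dl o e) : LipFree o) : StrongDual ℝ (Lip0 o)) - comb o (w (g e))) +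
            ((T (dl o e) - dl o e : LipFree o) : StrongDual ℝ (Lip0 o)) := by
          rw [Submodule.coe_sub]
          have : ((dl o e : LipFree o) : StrongDual ℝ (Lip0 o)) = delta o e := rfl
          rw [this]; abel
        rw [h3]
        refine (norm_add_le _ _).trans ?_
        rw [norm_neg]
        have h4 := hg e heB
        have h5 : ‖T (dl o e) - dl o e‖ < ε / 2 := hTE _ ⟨e, he, rfl⟩
        have h6 : ‖((T (dl o e) - dl o e : LipFree o) : StrongDual ℝ (Lip0 o))‖ < ε / 2 := h5
        linarith
      calc ‖(comb o (w (g e)) - delta o e) f0‖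
          ≤ ‖comb o (w (g e)) - delta o e‖ * ‖f0‖ := ContinuousLinearMap.le_opNorm _ _
        _ ≤ ε * K := mul_le_mul h2 hf0n (norm_nonneg _) hε.le
        _ = K * ε := by ring

end Vale.Agent.P090
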