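import Vale.Agent.P090.Push

/-! The three estimates for the pushed measures. -/

namespace Vale.Agent.P090

open scoped NNReal

variable {k : ℕ} {V Y S : Type} [MulAction (FreeGroup (Fin k)) Y] [MulAction (FreeGroup (Fin k)) S]

/-- Data of the approximation at one block. -/
structure BlockData (k : ℕ) (V Y S : Type) [MulAction (FreeGroup (Fin k)) Y]
    [MulAction (FreeGroup (Fin k)) S] (m : MetricSpace (V × S)) where
  step : Letter k → V → Option V
  ι : V → Y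
  hι : ∀ c u v, step c u = some v → FreeGroup.mk [c] • ι u = ι v
  hS : S → ℝ≥0
  DS : S → ℝ≥0
  hDi : Inv k DS
  hhi : Inv k hS
  hS1 : ∀ s, 1 ≤ hS s
  dist_le : ∀ p q, m.dist p q ≤ d0 step hS DS p q
  one_le : ∀ p q, p ≠ q → 1 ≤ m.dist p q
  transfer : ∀ (f : V × S → ℝ) (C : ℝ), 0 ≤ C → (∀ x y, |f x - f y| ≤ C * d0 step hS DS x y) →
        ∀ x y, |f x - f y| ≤ C * m.dist x y
  B : Set S
  hB : ∀ (g : FreeGroup (Fin k)) s, s ∈ B → g • s ∈ B
  r : ℕ
  hr : 2 ≤ r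
  free : ∀ s ∈ B, FreeAt k r s
  h : ℝ
  hSB : ∀ s ∈ B, (hS s : ℝ) = h
  hh1 : 1 / ((r:ℝ) - 1) ≤ 2 / h
  hhD : ∀ s ∈ B, h ≤ DS s
  hrD : ∀ s ∈ B, (r : ℝ) - 1 ≤ DS s
  o : V
  lam : ℝ
  ε : ℝ
  lam_nonneg : 0 ≤ lam
  ε_pos : 0 < ε
  v : V × S → V × S →₀ ℝ
  mass : ∀ p, p.2 ∈ B → (v p).sum (fun _ a => a) = 1
  lipv : ∀ (f : V × S → ℝ) (K : ℝ), 0 ≤ K → (∀ x y, |f x - f y| ≤ K * m.dist x y) →
    (∀ p q, p.2 ∈ B → q.2 ∈ B → |pr f (v p) - pr f (v q)| ≤ K * (lam * m.dist p q + ε))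
  near : ∀ (f : V × S → ℝ) (K : ℝ), 0 ≤ K → (∀ x y, |f x - f y| ≤ K * m.dist x y) →
    ∀ s ∈ B, |pr f (v (o, s)) - f (o, s)| ≤ K * ε

namespace BlockData

variable {m : MetricSpace (V × S)} (D : BlockData k V Y S m)

/-- the pushed measure -/
noncomputable def xi (x : V) (s : S) : Y →₀ ℝ := push k D.ι D.r s (D.v (x, s))

theorem h_pos (s : S) (hs : s ∈ D.B) : 1 ≤ D.h := by
  rw [← D.hSB s hs]
  exact_mod_cast D.hS1 s

theorem r_pos : (0:ℝ) < (D.r : ℝ) - 1 := by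
  have : (2:ℝ) ≤ D.r := by exact_mod_cast D.hr
  linarith

theorem dist_vert (x : V) (s : S) (hs : s ∈ D.B) : m.dist (x, s) (D.o, s) ≤ D.h := by
  refine (D.dist_le _ _).trans ?_
  have h1 := D.h_pos s hs
  have h2 := D.hSB s hs
  unfold d0
  split_ifs with e1 e2 e3
  · simp only [NNReal.coe_zero]; linarith
  · simpa using h1
  · exact h2.le
  · exact absurd rfl e3

theorem dist_real {x y : V} {c : Letter k} (hxy : D.step c x = some y) (s : S) :
    m.dist (x, s) (y, FreeGroup.mk [c] • s) ≤ 1 := by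
  refine (D.dist_le _ _).trans ?_
  have : RAdj D.step (x, s) (y, FreeGroup.mk [c] • s) := ⟨c, hxy, rfl⟩
  unfold d0
  split_ifs with e1
  · simp
  · simp

/-- Lipschitz property of the test function. -/
theorem tf_lipschitz {s : S} (hs : s ∈ D.B) {σ : Y → ℝ} (hσ : ∀ y, |σ y| ≤ 1) (p q : V × S) :
    |tf k D.ι D.r s σ p - tf k D.ι D.r s σ q| ≤ 2 / D.h * m.dist p q := by
  have h1 := D.h_pos s hs
  have h2 := D.hSB s hs
  refine D.transfer _ _ (by positivity) (fun p q => ?_) p q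
  have := tf_lip D.step D.ι D.hι D.hDi D.hhi D.hr (D.free s hs) hσ (by rw [h2]; linarith)
    (by rw [h2]; exact D.hh1) (by rw [h2]; exact D.hhD s hs) p q
  rwa [h2] at this

theorem tf_lipschitz_one {s : S} (hs : s ∈ D.B) (p q : V × S) :
    |tf k D.ι D.r s (fun _ => 1) p - tf k D.ι D.r s (fun _ => 1) q| ≤
      1 / ((D.r:ℝ) - 1) * m.dist p q := by
  have h1 := D.r_pos
  refine D.transfer _ _ (by positivity) (fun p q => ?_) p q
  exact tf_lip_one D.step D.ι D.hι D.hDi D.hr (D.free s hs) (D.hrD s hs) p q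

/-- Comparison of `∫ f dv(x,s)` with `f(o,s)`. -/
theorem near' (f : V × S → ℝ) (K : ℝ) (hK : 0 ≤ K) (hf : ∀ x y, |f x - f y| ≤ K * m.dist x y)
    (x : V) (s : S) (hs : s ∈ D.B) :
    |pr f (D.v (x, s)) - f (D.o, s)| ≤ K * (D.lam * D.h + 2 * D.ε) := by
  have h1 := D.lipv f K hK hf (x, s) (D.o, s) hs hs
  have h2 := D.near f K hK hf s hs
  have h3 : K * (D.lam * m.dist (x, s) (D.o, s) + D.ε) ≤ K * (D.lam * D.h + D.ε) := by
    apply mul_le_mul_of_nonneg_left _ hK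
    have := mul_le_mul_of_nonneg_left (D.dist_vert x s hs) D.lam_nonneg
    linarith
  calc |pr f (D.v (x, s)) - f (D.o, s)| =
        |(pr f (D.v (x, s)) - pr f (D.v (D.o, s))) + (pr f (D.v (D.o, s)) - f (D.o, s))| := by
          congr 1; ring
    _ ≤ _ := abs_add_le _ _
    _ ≤ K * (D.lam * D.h + D.ε) + K * D.ε := add_le_add (h1.trans h3) h2
    _ = _ := by ring

theorem tf_at_o (σ : Y → ℝ) {s : S} (hs : s ∈ D.B) :
    tf k D.ι D.r s σ (D.o, s) = σ (D.ι D.o) := by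
  have := tf_eq (k := k) D.ι D.hr (D.free s hs) σ (z := (D.o, s)) (g := 1)
    (by rw [FreeGroup.norm_one]; omega) (one_smul _ _)
  rw [this, FreeGroup.norm_one, phi_zero D.hr, one_mul, one_smul]

theorem tf_at_o' (σ : Y → ℝ) {s : S} (hs : s ∈ D.B) (c : Letter k) :
    tf k D.ι D.r (FreeGroup.mk [c] • s) σ (D.o, s) = σ (FreeGroup.mk [c] • D.ι D.o) := by
  have := tf_eq (k := k) D.ι D.hr (D.free _ (D.hB (FreeGroup.mk [c]) s hs)) σ (z := (D.o, s))
    (g := FreeGroup.mk [c]) (by rw [norm_mk_single]; omega) rfl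
  rw [this, norm_mk_single, phi_one D.hr, one_mul]

/-- (a) the pushed measures have large mass -/
theorem mass_lower (x : V) {s : S} (hs : s ∈ D.B) :
    1 - 1 / ((D.r:ℝ) - 1) * (D.lam * D.h + 2 * D.ε) ≤ tv (D.xi x s) := by
  have h1 : pr (fun _ => (1:ℝ)) (D.xi x s) ≤ tv (D.xi x s) := pr_le_tv (fun _ => by simp) _
  refine le_trans ?_ h1
  unfold xi
  rw [pr_push]
  have h2 := D.near' _ _ (by have := D.r_pos; positivity) (D.tf_lipschitz_one hs) x s hs
  rw [D.tf_at_o (fun _ => 1) hs] at h2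
  rw [abs_le] at h2
  linarith [h2.1]

/-- (c) the pushed measures are bounded -/
theorem mass_upper (x : V) {s : S} (hs : s ∈ D.B) :
    tv (D.xi x s) ≤ 1 + 2 / D.h * (D.lam * D.h + 2 * D.ε) := by
  rw [tv_eq]
  set σ := sg (D.xi x s) with hσdef
  have hσ : ∀ y, |σ y| ≤ 1 := abs_sg _
  unfold xi
  rw [pr_push]
  have h2 := D.near' _ _ (by have := D.h_pos s hs; positivity) (D.tf_lipschitz hs hσ) x s hs
  rw [D.tf_at_o _ hs] at h2
  rw [abs_le] at h2
  have h3 := (abs_le.1 (hσ (D.ι D.o))).2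
  linarith [h2.2]

/-- (b) almost equivariance -/
theorem almost_equiv {x x' : V} {c : Letter k} (hx : D.step c x = some x') {s : S}
    (hs : s ∈ D.B) :
    tv (D.xi x' (FreeGroup.mk [c] • s) - (D.xi x s).mapDomain (fun y => FreeGroup.mk [c] • y)) ≤
      2 / D.h * (D.lam + D.ε) + 2 / ((D.r:ℝ) - 1) * (D.lam * D.h + 2 * D.ε) := by
  rw [tv_eq]
  set σ := sg (D.xi x' (FreeGroup.mk [c] • s) -
    (D.xi x s).mapDomain (fun y => FreeGroup.mk [c] • y)) with hσdef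
  have hσ : ∀ y, |σ y| ≤ 1 := abs_sg _
  rw [pr_sub, pr_mapDomain]
  unfold xi
  rw [pr_push, pr_push]
  have hs' : FreeGroup.mk [c] • s ∈ D.B := D.hB _ _ hs
  have hr := D.r_pos
  have hh := D.h_pos s hs
  -- first difference
  have h1 := D.lipv _ _ (by positivity) (D.tf_lipschitz hs' hσ) (x', FreeGroup.mk [c] • s) (x, s)
    hs' hs
  have h1' : m.dist (x', FreeGroup.mk [c] • s) (x, s) ≤ 1 := by
    have := D.dist_real hx s
    have e := m.dist_comm (x', FreeGroup.mk [c] • s) (x, s)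
    rw [e]; exact this
  have h1'' : 2 / D.h * (D.lam * m.dist (x', FreeGroup.mk [c] • s) (x, s) + D.ε) ≤
      2 / D.h * (D.lam + D.ε) := by
    apply mul_le_mul_of_nonneg_left _ (by positivity)
    have := mul_le_mul_of_nonneg_left h1' D.lam_nonneg
    linarith
  -- second difference
  have hlip : ∀ p q : V × S,
      |(tf k D.ι D.r (FreeGroup.mk [c] • s) σ p -
          tf k D.ι D.r s (fun y => σ (FreeGroup.mk [c] • y)) p) -
        (tf k D.ι D.r (FreeGroup.mk [c] • s) σ q -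
          tf k D.ι D.r s (fun y => σ (FreeGroup.mk [c] • y)) q)| ≤
        2 / ((D.r:ℝ) - 1) * m.dist p q := by
    intro p q
    by_cases hpq : p = q
    · rw [hpq, sub_self, abs_zero]
      have : 0 ≤ m.dist q q := (m.dist_self q).ge
      positivity
    · have e1 := tf_shift (k := k) D.ι D.hr (D.free s hs) hσ c p
      have e2 := tf_shift (k := k) D.ι D.hr (D.free s hs) hσ c q
      have e3 := D.one_le p q hpq
      have e4 : 2 / ((D.r:ℝ) - 1) * 1 ≤ 2 / ((D.r:ℝ) - 1) * m.dist p q :=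
        mul_le_mul_of_nonneg_left e3 (by positivity)
      refine le_trans ?_ e4
      rw [abs_le] at e1 e2 ⊢
      have e5 : 2 / ((D.r:ℝ) - 1) = 1 / ((D.r:ℝ) - 1) + 1 / ((D.r:ℝ) - 1) := by ring
      rw [mul_one, e5]
      constructor <;> linarith [e1.1, e1.2, e2.1, e2.2]
  have h2 := D.near' _ _ (by positivity) hlip x s hs
  rw [D.tf_at_o _ hs, D.tf_at_o' _ hs, sub_self, sub_zero, ← pr_fun_sub] at h2
  rw [abs_le] at h1 h2
  linarith [h1.2, h2.2]

end BlockData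

end Vale.Agent.P090
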