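import Mathlib

/-! Combinatorial definitions used in the proof for P090 (not part of the final statement). -/

namespace Vale.Agent.P090

/-- Letters: generators of the free group on `k` letters and their inverses. -/
abbrev Letter (k : ℕ) := Fin k × Bool

/-- The inverse letter. -/
def linv {k : ℕ} (c : Letter k) : Letter k := (c.1, !c.2)

/-- A finite labelled graph: every letter acts as a partial injection, inverse letters act as the
inverse partial maps, and every vertex has at most three available letters. -/
structure LG (k : ℕ) where
  N : ℕ
  step : Letter k → Fin N → Option (Fin N)
  inv_step : ∀ c u v, step c u = some v → step (linv c) v = some u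
  deg_le : ∀ u, (Finset.univ.filter (fun c => (step c u).isSome)).card ≤ 3

/-- `Red l`: the word `l` is reduced (letters are listed in the order in which they are applied). -/
def Red {k : ℕ} : List (Letter k) → Prop
  | [] => True
  | [_] => True
  | a :: b :: l => b ≠ linv a ∧ Red (b :: l)

/-- `Walk2 step1 step2 l x u`: the word `l` (first letter applied first) can be read along both
partial actions, starting from `x` and from `u`. -/
def Walk2 {k : ℕ} {X U : Type*} (step1 : Letter k → X → Option X)
    (step2 : Letter k → U → Option U) : List (Letter k) → X → U → Prop
  | [], _, _ => True
  | c :: l, x, u => ∃ x' u', step1 c x = some x' ∧ step2 c u = some u' ∧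
      Walk2 step1 step2 l x' u'

end Vale.Agent.P090
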