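import Vale.Agent.P090.Comb

/-! P090, piece (C): completing a partial action of the free group to a free one. -/

namespace Vale.Agent.P090

namespace CompAux

variable {k : ℕ} {V : Type}

theorem linv_linv (c : Letter k) : linv (linv c) = c := by
  simp [linv]

/-- reduced words with unavailable innermost letter (the head is the outermost letter) -/
def Gd (step : Letter k → V → Option V) (u : V) : List (Letter k) → Prop
  | [] => True
  | [a] => step a u = none
  | a :: b :: l => b ≠ linv a ∧ Gd step u (b :: l)

/-- the underlying type of the completion -/
def YY (step : Letter k → V → Option V) : Type := {p : V × List (Letter k) // Gd step p.1 p.2}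

/-- the action of a letter -/
def act0 (step : Letter k → V → Option V) (c : Letter k) : V × List (Letter k) → V × List (Letter k)
  | (u, []) => match step c u with
    | some v => (v, [])
    | none => (u, [c])
  | (u, a :: l) => if a = linv c then (u, l) else (u, c :: a :: l)

theorem act0_none (step : Letter k → V → Option V) (c : Letter k) (u : V)
    (h : step c u = none) : act0 step c (u, []) = (u, [c]) := by
  simp [act0, h]

theorem act0_some (step : Letter k → V → Option V) (c : Letter k) (u v : V)
    (h : step c u = some v) : act0 step c (u, []) = (v, []) := by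
  simp [act0, h]

theorem act0_pos (step : Letter k → V → Option V) (c : Letter k) (u : V) (a : Letter k)
    (l : List (Letter k)) (h : a = linv c) : act0 step c (u, a :: l) = (u, l) := by
  simp [act0, h]

theorem act0_neg (step : Letter k → V → Option V) (c : Letter k) (u : V) (a : Letter k)
    (l : List (Letter k)) (h : a ≠ linv c) : act0 step c (u, a :: l) = (u, c :: a :: l) := by
  simp [act0, h]

theorem act0_gd (step : Letter k → V → Option V) (c : Letter k) (p : V × List (Letter k))
    (hp : Gd step p.1 p.2) : Gd step (act0 step c p).1 (act0 step c p).2 := by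
  obtain ⟨u, w⟩ := p
  match w, hp with
  | [], _ =>
    cases h : step c u with
    | none => rw [act0_none step c u h]; exact h
    | some v => rw [act0_some step c u v h]; exact trivial
  | a :: l, hp =>
    by_cases hc : a = linv c
    · rw [act0_pos step c u a l hc]
      match l, hp with
      | [], _ => exact trivial
      | b :: l, hp => exact hp.2
    · rw [act0_neg step c u a l hc]
      exact ⟨hc, hp⟩

theorem act0_linv (step : Letter k → V → Option V)
    (hinv : ∀ c u v, step c u = some v → step (linv c) v = some u)
    (c : Letter k) (p : V × List (Letter k))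
    (hp : Gd step p.1 p.2) : act0 step (linv c) (act0 step c p) = p := by
  obtain ⟨u, w⟩ := p
  match w, hp with
  | [], _ =>
    cases h : step c u with
    | none => simp [act0, h, linv_linv]
    | some v => simp [act0, h, hinv c u v h]
  | a :: l, hp =>
    by_cases hc : a = linv c
    · subst hc
      match l, hp with
      | [], hp =>
        have : step (linv c) u = none := hp
        simp [act0, this]
      | b :: l, hp =>
        have h1 : b ≠ c := by
          have := hp.1
          rwa [linv_linv] at this
        simp [act0, linv_linv, h1]
    · simp [act0, hc, linv_linv]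

/-- the permutation given by a letter -/
def perm (step : Letter k → V → Option V)
    (hinv : ∀ c u v, step c u = some v → step (linv c) v = some u) (c : Letter k) :
    Equiv.Perm (YY step) where
  toFun y := ⟨act0 step c y.1, act0_gd step c y.1 y.2⟩
  invFun y := ⟨act0 step (linv c) y.1, act0_gd step (linv c) y.1 y.2⟩
  left_inv y := Subtype.ext (act0_linv step hinv c y.1 y.2)
  right_inv y := Subtype.ext (by
    have := act0_linv step hinv (linv c) y.1 y.2
    rwa [linv_linv] at this)

theorem perm_linv (step : Letter k → V → Option V)
    (hinv : ∀ c u v, step c u = some v → step (linv c) v = some u) (c : Letter k) :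
    perm step hinv (linv c) = (perm step hinv c)⁻¹ := by
  ext y
  rfl

/-- the homomorphism from the free group -/
def hom (step : Letter k → V → Option V)
    (hinv : ∀ c u v, step c u = some v → step (linv c) v = some u) :
    FreeGroup (Fin k) →* Equiv.Perm (YY step) :=
  FreeGroup.lift (fun i => perm step hinv (i, true))

theorem hom_mk (step : Letter k → V → Option V)
    (hinv : ∀ c u v, step c u = some v → step (linv c) v = some u) (c : Letter k) :
    hom step hinv (FreeGroup.mk [c]) = perm step hinv c := by
  obtain ⟨i, b⟩ := c
  cases b with
  | true => simp [hom, FreeGroup.lift_mk]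
  | false =>
    have := perm_linv step hinv (i, true)
    simp only [linv, Bool.not_true] at this
    rw [this]
    simp [hom, FreeGroup.lift_mk]

theorem red_take {X : Type} : ∀ (l : List (Letter k)) (n : ℕ), Red l → Red (l.take n)
  | [], _, _ => by simp [Red]
  | [a], n, _ => by
    cases n <;> simp [Red]
  | a :: b :: l, n, h => by
    match n with
    | 0 => simp [Red]
    | 1 => simp [Red]
    | n + 2 =>
      have := red_take (X := X) (b :: l) (n + 1) h.2
      simp only [List.take_succ_cons] at this ⊢
      exact ⟨h.1, this⟩

theorem walk_take {X : Type} (stepX : Letter k → X → Option X) (step : Letter k → V → Option V) :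
    ∀ (l : List (Letter k)) (n : ℕ) (x : X) (u : V), Walk2 stepX step l x u →
      Walk2 stepX step (l.take n) x u
  | [], n, x, u, _ => by simp [Walk2]
  | a :: l, n, x, u, h => by
    cases n with
    | zero => simp [Walk2]
    | succ n =>
      obtain ⟨x', u', h1, h2, h3⟩ := h
      exact ⟨x', u', h1, h2, walk_take stepX step l n x' u' h3⟩

open Classical in
/-- maximal length of a reduced common walk starting with `c` -/
noncomputable def HH {X : Type} (stepX : Letter k → X → Option X)
    (step : Letter k → V → Option V) (g : ℕ) (x : X) (u : V) (c : Letter k) : ℕ :=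
  Nat.findGreatest (fun n => ∃ l : List (Letter k), l.length = n ∧ Red l ∧ l.head? = some c ∧
    Walk2 stepX step l x u) g

theorem lt_g {X : Type} (stepX : Letter k → X → Option X)
    (step : Letter k → V → Option V) (g : ℕ) (x : X) (u : V)
    (hno : ∀ l : List (Letter k), l.length = g → Red l → ¬ Walk2 stepX step l x u)
    (l : List (Letter k)) (hl : Red l) (hw : Walk2 stepX step l x u) : l.length < g := by
  by_contra hcon
  push Not at hcon
  exact hno (l.take g) (by simp [hcon]) (red_take (X := X) l g hl)
    (walk_take stepX step l g x u hw)

theorem red_cons (c d : Letter k) (l : List (Letter k)) (hl : Red l) (hd : l.head? = some d)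
    (hne : d ≠ linv c) : Red (c :: l) := by
  cases l with
  | nil => simp at hd
  | cons b l =>
    simp only [List.head?_cons, Option.some.injEq] at hd
    subst hd
    exact ⟨hne, hl⟩

theorem hh_step {X : Type} (stepX : Letter k → X → Option X)
    (step : Letter k → V → Option V) (g : ℕ) (x x' : X) (u v : V)
    (hno : ∀ l : List (Letter k), l.length = g → Red l → ¬ Walk2 stepX step l x u)
    (c d : Letter k) (hx : stepX c x = some x') (hu : step c u = some v) (hd : d ≠ linv c) :
    HH stepX step g x' v d + 1 ≤ HH stepX step g x u c := by
  classical
  by_cases h0 : HH stepX step g x' v d = 0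
  · rw [h0]
    have hw : Walk2 stepX step [c] x u := ⟨x', v, hx, hu, trivial⟩
    have hr : Red [c] := trivial
    have hlt := lt_g stepX step g x u hno [c] hr hw
    simp only [List.length_singleton] at hlt
    exact Nat.le_findGreatest (by omega) ⟨[c], rfl, hr, rfl, hw⟩
  · obtain ⟨l, h1, h2, h3, h4⟩ := Nat.findGreatest_of_ne_zero (P := fun n =>
      ∃ l : List (Letter k), l.length = n ∧ Red l ∧ l.head? = some d ∧
        Walk2 stepX step l x' v) (n := g) rfl h0
    have hr : Red (c :: l) := red_cons c d l h2 h3 hd
    have hw : Walk2 stepX step (c :: l) x u := ⟨x', v, hx, hu, h4⟩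
    have hlt := lt_g stepX step g x u hno _ hr hw
    simp only [List.length_cons] at hlt
    have h1' : l.length = HH stepX step g x' v d := h1
    refine Nat.le_findGreatest (by omega) ⟨c :: l, ?_, hr, rfl, hw⟩
    simp only [List.length_cons]
    omega

theorem act0_fst_mem (step : Letter k → V → Option V) (A : Set V)
    (hA : ∀ c u v, u ∈ A → step c u = some v → v ∈ A) (c : Letter k)
    (p : V × List (Letter k)) (hp : p.1 ∈ A) : (act0 step c p).1 ∈ A := by
  obtain ⟨u, w⟩ := p
  cases w with
  | nil =>
    cases h : step c u with
    | none => rw [act0_none step c u h]; exact hp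
    | some v => rw [act0_some step c u v h]; exact hA c u v hp h
  | cons a l =>
    by_cases hc : a = linv c
    · rw [act0_pos step c u a l hc]; exact hp
    · rw [act0_neg step c u a l hc]; exact hp

theorem orbit_mem (step : Letter k → V → Option V)
    (hinv : ∀ c u v, step c u = some v → step (linv c) v = some u) (A : Set V)
    (hA : ∀ c u v, u ∈ A → step c u = some v → v ∈ A) (y : YY step) (hy : y.1.1 ∈ A)
    (L : List (Letter k)) : (hom step hinv (FreeGroup.mk L) y).1.1 ∈ A := by
  induction L with
  | nil =>
    have : FreeGroup.mk ([] : List (Letter k)) = 1 := rfl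
    rw [this, map_one]
    exact hy
  | cons c L ih =>
    have : FreeGroup.mk (c :: L) = FreeGroup.mk [c] * FreeGroup.mk L := by
      rw [FreeGroup.mul_mk]; rfl
    rw [this, map_mul, hom_mk]
    exact act0_fst_mem step A hA c _ ih

end CompAux

open CompAux in
theorem completion {k : ℕ} (hk : 0 < k) {V : Type} (step : Letter k → V → Option V)
    (hinv : ∀ c u v, step c u = some v → step (linv c) v = some u) :
    ∃ (Y : Type) (_ : MulAction (FreeGroup (Fin k)) Y) (ι : V → Y),
      (∀ c u v, step c u = some v → FreeGroup.mk [c] • ι u = ι v) ∧
      ∀ (X : Type) (stepX : Letter k → X → Option X),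
        (∀ c x x', stepX c x = some x' → stepX (linv c) x' = some x) →
        ∀ (A : Set V), (∀ c u v, u ∈ A → step c u = some v → v ∈ A) →
        ∀ g : ℕ, (∀ x, ∀ u ∈ A, ∀ l : List (Letter k), l.length = g → Red l →
          ¬ Walk2 stepX step l x u) →
        ∃ c0 : X → Y → Letter k, ∀ c x x' y,
          (∃ w : FreeGroup (Fin k), ∃ u ∈ A, y = w • ι u) →
          stepX c x = some x' → c ≠ c0 x y → c0 x' (FreeGroup.mk [c] • y) = linv c := by
  have : Nonempty (Letter k) := ⟨(⟨0, hk⟩, true)⟩
  refine ⟨YY step, MulAction.compHom (YY step) (hom step hinv), fun u => ⟨(u, []), trivial⟩,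
    ?_, ?_⟩
  · intro c u v h
    change hom step hinv (FreeGroup.mk [c]) _ = _
    rw [hom_mk]
    apply Subtype.ext
    change act0 step c (u, []) = (v, [])
    simp [act0, h]
  · intro X stepX hinvX A hA g hno
    have hmax : ∀ x u, ∃ c0, ∀ c, HH stepX step g x u c ≤ HH stepX step g x u c0 := fun x u =>
      Finite.exists_max (fun c => HH stepX step g x u c)
    choose cm hcm using hmax
    refine ⟨fun x y => match y.1.2 with
      | [] => cm x y.1.1
      | a :: _ => linv a, ?_⟩
    rintro c x x' y ⟨w, u0, hu0, hyw⟩ hx hc
    have hy : y.1.1 ∈ A := by
      have := orbit_mem step hinv A hA ⟨(u0, []), trivial⟩ hu0 w.toWord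
      rw [FreeGroup.mk_toWord] at this
      rw [hyw]
      exact this
    clear hyw
    change (match (hom step hinv (FreeGroup.mk [c]) y).1.2 with
      | [] => cm x' (hom step hinv (FreeGroup.mk [c]) y).1.1
      | a :: _ => linv a) = linv c
    rw [hom_mk]
    obtain ⟨⟨u, l⟩, hl⟩ := y
    cases l with
    | nil =>
      change c ≠ cm x u at hc
      cases h : step c u with
      | none =>
        have e : (perm step hinv c ⟨(u, []), hl⟩).1 = (u, [c]) := by
          change act0 step c (u, []) = (u, [c])
          simp [act0, h]
        simp only [e]
      | some v =>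
        have e : (perm step hinv c ⟨(u, []), hl⟩).1 = (v, []) := by
          change act0 step c (u, []) = (v, [])
          simp [act0, h]
        simp only [e]
        by_contra hne
        have h1 := hh_step stepX step g x' x v u (fun l => hno x' v (hA c u v hy h) l) (linv c)
          (cm x u) (hinvX c x x' hx) (hinv c u v h) (by rw [linv_linv]; exact hc.symm)
        have h2 := hcm x u c
        have h3 := hh_step stepX step g x x' u v (fun l => hno x u hy l) c (cm x' v) hx h hne
        have h4 := hcm x' v (linv c)
        omega
    | cons a l =>
      change c ≠ linv a at hc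
      have hc' : a ≠ linv c := by
        rintro rfl
        rw [linv_linv] at hc
        exact hc rfl
      have e : (perm step hinv c ⟨(u, a :: l), hl⟩).1 = (u, c :: a :: l) := by
        change act0 step c (u, a :: l) = (u, c :: a :: l)
        simp [act0, hc']
      simp only [e]

end Vale.Agent.P090
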