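import Mathlib

namespace Vale.Agent.P090

namespace IsoAux

lemma sum_le_norm {Y : Type*} (η : Y →₀ ℝ) (F : Finset Y) :
    ∑ z ∈ F, |η z| ≤ η.sum (fun _ a => |a|) := by
  classical
  unfold Finsupp.sum
  calc ∑ z ∈ F, |η z| ≤ ∑ z ∈ F ∪ η.support, |η z| :=
        Finset.sum_le_sum_of_subset_of_nonneg Finset.subset_union_left
          (fun _ _ _ => abs_nonneg _)
    _ = ∑ z ∈ η.support, |η z| := by
        symm
        apply Finset.sum_subset Finset.subset_union_right
        intro z _ hz
        rw [Finsupp.notMem_support_iff.1 hz, abs_zero]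

lemma one_step {Y : Type*} (a b : Y →₀ ℝ) (f : Y → Y) (hf : Function.Injective f)
    (F : Finset Y) :
    ∑ y ∈ F, (|b y| - |a (f y)|) ≤ (a - b.mapDomain f).sum (fun _ a => |a|) := by
  classical
  calc ∑ y ∈ F, (|b y| - |a (f y)|) ≤ ∑ y ∈ F, |(a - b.mapDomain f) (f y)| := by
        apply Finset.sum_le_sum
        intro y _
        rw [Finsupp.sub_apply, Finsupp.mapDomain_apply hf]
        have := abs_sub_abs_le_abs_sub (b y) (a (f y))
        rw [abs_sub_comm] at this
        exact this
    _ = ∑ z ∈ F.image f, |(a - b.mapDomain f) z| := by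
        rw [Finset.sum_image (fun x _ y _ h => hf h)]
    _ ≤ _ := sum_le_norm _ _

end IsoAux

open IsoAux

/- (I) file Iso.lean -/
theorem iso {Λ P Y : Type*} [Fintype Λ] [DecidableEq Λ] [Fintype P] (inv : Λ → Λ)
    (hinv : Function.Injective inv) (step : Λ → P → Option P) (act : Λ → Y → Y) (A : Set Y)
    (c0 : P → Y → Λ)
    (hstep : ∀ c p p' q, step c p = some q → step c p' = some q → p = p')
    (hact : ∀ c, Function.Injective (act c))
    (hc0 : ∀ c p q y, y ∈ A → step c p = some q → c ≠ c0 p y → c0 q (act c y) = inv c)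
    (ξ : P → Y →₀ ℝ) (hξ : ∀ p, ∀ y ∈ (ξ p).support, y ∈ A) :
    ∑ p, (((Finset.univ.filter (fun c => (step c p).isSome)).card : ℝ) - 2) *
        (ξ p).sum (fun _ a => |a|)
      ≤ ∑ p, ∑ c, match step c p with
        | none => 0
        | some q => (ξ q - (ξ p).mapDomain (act c)).sum (fun _ a => |a|) := by
  classical
  -- the index set of triples
  set tgt : Λ → P → P := fun c p => (step c p).getD p with htgt
  have htgt' : ∀ c p q, step c p = some q → tgt c p = q := by
    intro c p q h
    simp [htgt, h]
  set Sy : Finset Y := Finset.univ.biUnion (fun p => (ξ p).support) with hSy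
  set I : Finset (P × Λ × Y) := (Finset.univ ×ˢ Finset.univ ×ˢ Sy).filter
    (fun t => (step t.2.1 t.1).isSome ∧ t.2.2 ∈ (ξ t.1).support ∧ t.2.1 ≠ c0 t.1 t.2.2) with hI
  have hIsum : ∀ g : P × Λ × Y → ℝ, ∑ t ∈ I, g t = ∑ p, ∑ c, (if (step c p).isSome then
      ∑ y ∈ (ξ p).support.filter (fun y => c ≠ c0 p y), g (p, c, y) else 0) := by
    intro g
    rw [hI, Finset.sum_filter, Finset.sum_product]
    apply Finset.sum_congr rfl
    intro p _
    rw [Finset.sum_product]
    apply Finset.sum_congr rfl
    intro c _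
    by_cases h : (step c p).isSome = true
    · simp only [h, true_and, if_true]
      rw [← Finset.sum_filter]
      apply Finset.sum_congr _ (fun _ _ => rfl)
      ext y
      simp only [Finset.mem_filter, hSy, Finset.mem_biUnion, Finset.mem_univ, true_and]
      constructor
      · rintro ⟨_, h1, h2⟩; exact ⟨h1, h2⟩
      · rintro ⟨h1, h2⟩; exact ⟨⟨p, h1⟩, h1, h2⟩
    · simp only [h]
      simp
  -- first part : lower bound of the right-hand side
  have h1 : ∑ t ∈ I, (|ξ t.1 t.2.2| - |ξ (tgt t.2.1 t.1) (act t.2.1 t.2.2)|) ≤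
      ∑ p, ∑ c, match step c p with
        | none => 0
        | some q => (ξ q - (ξ p).mapDomain (act c)).sum (fun _ a => |a|) := by
    rw [hIsum]
    apply Finset.sum_le_sum
    intro p _
    apply Finset.sum_le_sum
    intro c _
    cases h : step c p with
    | none => simp
    | some q =>
      simp only [Option.isSome_some, if_true]
      rw [htgt' c p q h]
      exact one_step _ _ _ (hact c) _
  refine le_trans ?_ h1
  rw [Finset.sum_sub_distrib]
  -- second part : the subtracted sum
  have h2 : ∑ t ∈ I, |ξ (tgt t.2.1 t.1) (act t.2.1 t.2.2)| ≤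
      ∑ q, (ξ q).sum (fun _ a => |a|) := by
    have hinj : Set.InjOn (fun t : P × Λ × Y => (tgt t.2.1 t.1, act t.2.1 t.2.2)) I := by
      rintro ⟨p, c, y⟩ ht ⟨p', c', y'⟩ ht' heq
      rw [Finset.mem_coe, hI, Finset.mem_filter] at ht ht'
      obtain ⟨_, hs, hy, hc⟩ := ht
      obtain ⟨_, hs', hy', hc'⟩ := ht'
      simp only at hs hs' hy hy' hc hc' heq
      obtain ⟨q, hq⟩ := Option.isSome_iff_exists.1 hs
      obtain ⟨q', hq'⟩ := Option.isSome_iff_exists.1 hs'
      rw [htgt' _ _ _ hq, htgt' _ _ _ hq'] at heq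
      rw [Prod.mk.injEq] at heq
      obtain ⟨e1, e2⟩ := heq
      subst e1
      have e3 := hc0 c p q y (hξ p y hy) hq hc
      have e4 := hc0 c' p' q y' (hξ p' y' hy') hq' hc'
      rw [e2, e4] at e3
      have e5 := hinv e3
      subst e5
      have e6 := hact _ e2
      subst e6
      have e7 := hstep _ _ _ _ hq hq'
      subst e7
      rfl
    calc ∑ t ∈ I, |ξ (tgt t.2.1 t.1) (act t.2.1 t.2.2)|
        = ∑ s ∈ I.image (fun t : P × Λ × Y => (tgt t.2.1 t.1, act t.2.1 t.2.2)), |ξ s.1 s.2| := by
          rw [Finset.sum_image hinj]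
      _ ≤ ∑ s ∈ (Finset.univ : Finset P) ×ˢ
          ((I.image (fun t : P × Λ × Y => (tgt t.2.1 t.1, act t.2.1 t.2.2))).image Prod.snd),
          |ξ s.1 s.2| := by
          apply Finset.sum_le_sum_of_subset_of_nonneg
          · intro s hs
            rw [Finset.mem_product]
            exact ⟨Finset.mem_univ _, Finset.mem_image_of_mem _ hs⟩
          · intro _ _ _; exact abs_nonneg _
      _ = ∑ q, ∑ z ∈ (I.image (fun t : P × Λ × Y =>
            (tgt t.2.1 t.1, act t.2.1 t.2.2))).image Prod.snd, |ξ q z| := by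
          rw [Finset.sum_product]
      _ ≤ ∑ q, (ξ q).sum (fun _ a => |a|) := by
          apply Finset.sum_le_sum
          intro q _
          exact sum_le_norm _ _
  -- first sum
  have h3 : ∑ p, (((Finset.univ.filter (fun c => (step c p).isSome)).card : ℝ) - 1) *
      (ξ p).sum (fun _ a => |a|) ≤ ∑ t ∈ I, |ξ t.1 t.2.2| := by
    rw [hIsum]
    apply Finset.sum_le_sum
    intro p _
    have e1 : ∑ c, (if (step c p).isSome then
        ∑ y ∈ (ξ p).support.filter (fun y => c ≠ c0 p y), |ξ p y| else 0) =
        ∑ y ∈ (ξ p).support, ((Finset.univ.filter (fun c => (step c p).isSome ∧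
          c ≠ c0 p y)).card : ℝ) * |ξ p y| := by
      simp only [Finset.sum_filter]
      have : ∀ c, (if (step c p).isSome = true then
          ∑ y ∈ (ξ p).support, (if c ≠ c0 p y then |ξ p y| else 0) else 0) =
          ∑ y ∈ (ξ p).support, (if (step c p).isSome = true ∧ c ≠ c0 p y then |ξ p y| else 0) := by
        intro c
        by_cases h : (step c p).isSome = true
        · simp [h]
        · simp [h]
      rw [Finset.sum_congr rfl (fun c _ => this c), Finset.sum_comm]
      apply Finset.sum_congr rfl
      intro y _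
      rw [← Finset.sum_filter, Finset.sum_const, nsmul_eq_mul]
    rw [e1]
    unfold Finsupp.sum
    rw [Finset.mul_sum]
    apply Finset.sum_le_sum
    intro y _
    apply mul_le_mul_of_nonneg_right _ (abs_nonneg _)
    have e2 : (Finset.univ.filter (fun c => (step c p).isSome)).card ≤
        (Finset.univ.filter (fun c => (step c p).isSome ∧ c ≠ c0 p y)).card + 1 := by
      have : Finset.univ.filter (fun c => (step c p).isSome = true) ⊆
          insert (c0 p y) (Finset.univ.filter (fun c => (step c p).isSome = true ∧ c ≠ c0 p y)) := by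
        intro c hc
        rw [Finset.mem_filter] at hc
        rw [Finset.mem_insert, Finset.mem_filter]
        by_cases h : c = c0 p y
        · left; exact h
        · right; exact ⟨Finset.mem_univ _, hc.2, h⟩
      exact (Finset.card_le_card this).trans (Finset.card_insert_le _ _)
    have e3 : ((Finset.univ.filter (fun c => (step c p).isSome)).card : ℝ) ≤
        ((Finset.univ.filter (fun c => (step c p).isSome ∧ c ≠ c0 p y)).card : ℝ) + 1 := by
      exact_mod_cast e2
    linarith
  have h4 : ∑ p, (((Finset.univ.filter (fun c => (step c p).isSome)).card : ℝ) - 2) *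
        (ξ p).sum (fun _ a => |a|) =
      ∑ p, (((Finset.univ.filter (fun c => (step c p).isSome)).card : ℝ) - 1) *
        (ξ p).sum (fun _ a => |a|) - ∑ q, (ξ q).sum (fun _ a => |a|) := by
    rw [← Finset.sum_sub_distrib]
    apply Finset.sum_congr rfl
    intro p _
    ring
  rw [h4]
  linarith

end Vale.Agent.P090
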