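import Vale.Agent.P090.Block
import Vale.Agent.P090.Iso

/-! The contradiction inside one block. -/

namespace Vale.Agent.P090

open scoped NNReal
open Finset

variable {k : ℕ} {V Y S : Type} [MulAction (FreeGroup (Fin k)) Y] [MulAction (FreeGroup (Fin k)) S]

theorem block_false {m : MetricSpace (V × S)} (D : BlockData k V Y S m) [Fintype ↥D.B]
    [Nonempty ↥D.B] {X : Type} [Fintype X] [Nonempty X] (stepX : Letter k → X → Option X)
    (hX : ∀ c x x', stepX c x = some x' → stepX (linv c) x' = some x) (j : X → V)
    (hj : ∀ c x x', stepX c x = some x' → D.step c (j x) = some (j x'))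
    (hdeg : ∀ x, (univ.filter (fun c => (stepX c x).isSome)).card ≤ 3)
    (δ : ℝ) (hdef : ((univ.filter (fun x : X =>
      (univ.filter (fun c => (stepX c x).isSome)).card < 3)).card : ℝ) ≤ δ * Fintype.card X)
    (A : Set V) (hA : ∀ s ∈ D.B, ∀ x, ∀ z ∈ (D.v (j x, s)).support, z.1 ∈ A)
    (c0 : X → Y → Letter k)
    (hc0 : ∀ c x x' y, (∃ w : FreeGroup (Fin k), ∃ u ∈ A, y = w • D.ι u) →
      stepX c x = some x' → c ≠ c0 x y → c0 x' (FreeGroup.mk [c] • y) = linv c)
    (low up e1 : ℝ) (hlow : low = 1 - 1 / ((D.r:ℝ) - 1) * (D.lam * D.h + 2 * D.ε))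
    (hup : up = 1 + 2 / D.h * (D.lam * D.h + 2 * D.ε))
    (he1 : e1 = 2 / D.h * (D.lam + D.ε) + 2 / ((D.r:ℝ) - 1) * (D.lam * D.h + 2 * D.ε))
    (hlow0 : 0 ≤ low) (hup0 : 0 ≤ up) (he10 : 0 ≤ e1)
    (hnum : 3 * e1 < low * (1 - δ) - 2 * up * δ) : False := by
  classical
  -- the combined step
  let st : Letter k → X × ↥D.B → Option (X × ↥D.B) := fun c p =>
    (stepX c p.1).map (fun x' => (x', ⟨FreeGroup.mk [c] • (p.2 : S), D.hB _ _ p.2.2⟩))
  have st_some : ∀ c p q, st c p = some q ↔ stepX c p.1 = some q.1 ∧
      (q.2 : S) = FreeGroup.mk [c] • (p.2 : S) := by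
    intro c p q
    simp only [st, Option.map_eq_some_iff]
    constructor
    · rintro ⟨x', h1, h2⟩
      rw [← h2]; exact ⟨h1, rfl⟩
    · rintro ⟨h1, h2⟩
      refine ⟨q.1, h1, ?_⟩
      apply Prod.ext
      · rfl
      · exact Subtype.ext h2.symm
  have st_isSome : ∀ c p, (st c p).isSome = (stepX c p.1).isSome := by
    intro c p; simp [st]
  let ξ : X × ↥D.B → Y →₀ ℝ := fun p => D.xi (j p.1) (p.2 : S)
  have hiso := iso (Λ := Letter k) (P := X × ↥D.B) (Y := Y) linv linv_injective st
    (fun c y => FreeGroup.mk [c] • y)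
    {y | ∃ w : FreeGroup (Fin k), ∃ u ∈ A, y = w • D.ι u} (fun p y => c0 p.1 y)
    (by
      intro c p p' q h1 h2
      rw [st_some] at h1 h2
      have e1 := hX _ _ _ h1.1
      have e2 := hX _ _ _ h2.1
      rw [e1] at e2
      apply Prod.ext
      · exact Option.some.inj e2
      · apply Subtype.ext
        have : FreeGroup.mk [c] • (p.2 : S) = FreeGroup.mk [c] • (p'.2 : S) := by
          rw [← h1.2, ← h2.2]
        exact smul_left_cancel _ this)
    (fun c => MulAction.injective _)
    (by
      intro c p q y hy h1 h2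
      rw [st_some] at h1
      exact hc0 c p.1 q.1 y hy h1.1 h2)
    ξ
    (by
      intro p y hy
      exact push_support D.ι D.r _ _ (hA p.2 p.2.2 p.1) y hy)
  -- lower bound of the left-hand side
  have hL : ∑ p : X × ↥D.B, (if (univ.filter (fun c => (stepX c p.1).isSome)).card < 3 then
        -(2 * up) else low) ≤ ∑ p, (((Finset.univ.filter
          (fun c => (st c p).isSome)).card : ℝ) - 2) * (ξ p).sum (fun _ a => |a|) := by
    refine Finset.sum_le_sum fun p _ => ?_
    have hcard : (Finset.univ.filter (fun c => (st c p).isSome)) =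
        (Finset.univ.filter (fun c => (stepX c p.1).isSome)) := by
      ext c; simp only [Finset.mem_filter, Finset.mem_univ, true_and, st_isSome]
    rw [hcard]
    have h1 : low ≤ (ξ p).sum (fun _ a => |a|) := by
      rw [hlow]; exact D.mass_lower _ p.2.2
    have h2 : (ξ p).sum (fun _ a => |a|) ≤ up := by
      rw [hup]; exact D.mass_upper _ p.2.2
    split_ifs with h3
    · have h4 : (0:ℝ) ≤ ((univ.filter (fun c => (stepX c p.1).isSome)).card : ℝ) :=
        Nat.cast_nonneg _
      have h5 : 0 ≤ (ξ p).sum (fun _ a => |a|) := hlow0.trans h1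
      nlinarith
    · have h4 : (univ.filter (fun c => (stepX c p.1).isSome)).card = 3 :=
        le_antisymm (hdeg _) (not_lt.1 h3)
      rw [h4]
      have : ((3:ℕ):ℝ) - 2 = 1 := by norm_num
      rw [this, one_mul]
      exact h1
  have hfin : ∑ p : X × ↥D.B, (if (univ.filter (fun c => (stepX c p.1).isSome)).card < 3 then
        -(2 * up) else low) ≤ ∑ p : X × ↥D.B, 3 * e1 := by
    refine (hL.trans hiso).trans ?_
    refine Finset.sum_le_sum fun p _ => ?_
    refine (Finset.sum_le_sum
      (g := fun c => if (stepX c p.1).isSome then e1 else 0) fun c _ => ?_).trans ?_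
    · split
      · rename_i hst
        have : (stepX c p.1).isSome = false := by rw [← st_isSome, hst]; rfl
        rw [this]; simp
      · rename_i q hst
        have h1 : (stepX c p.1).isSome = true := by rw [← st_isSome, hst]; rfl
        rw [if_pos h1]
        rw [st_some] at hst
        have h2 := D.almost_equiv (hj _ _ _ hst.1) p.2.2
        rw [← hst.2, ← he1] at h2
        exact h2
    · rw [← Finset.sum_filter, Finset.sum_const, nsmul_eq_mul]
      apply mul_le_mul_of_nonneg_right _ he10
      exact_mod_cast hdeg p.1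
  -- evaluate
  rw [Finset.sum_const, nsmul_eq_mul, Finset.card_univ, Fintype.card_prod] at hfin
  rw [Fintype.sum_prod_type] at hfin
  simp only [Finset.sum_const, nsmul_eq_mul, Finset.card_univ] at hfin
  rw [← Finset.mul_sum] at hfin
  have hsum : ∑ x : X, (if (univ.filter (fun c => (stepX c x).isSome)).card < 3 then
        -(2 * up) else low) = low * Fintype.card X - (low + 2 * up) *
        ((univ.filter (fun x : X =>
          (univ.filter (fun c => (stepX c x).isSome)).card < 3)).card : ℝ) := by
    have : ∀ x : X, (if (univ.filter (fun c => (stepX c x).isSome)).card < 3 then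
        -(2 * up) else low) = low - (low + 2 * up) *
          (if (univ.filter (fun c => (stepX c x).isSome)).card < 3 then (1:ℝ) else 0) := by
      intro x; split_ifs <;> ring
    simp_rw [this]
    rw [Finset.sum_sub_distrib, ← Finset.mul_sum, Finset.sum_const, nsmul_eq_mul,
      Finset.card_univ, Finset.sum_boole]
    ring
  rw [hsum] at hfin
  have hXpos : (0:ℝ) < Fintype.card X := by exact_mod_cast Fintype.card_pos
  have hBpos : (0:ℝ) < Fintype.card ↥D.B := by exact_mod_cast Fintype.card_pos
  have h5 : low * Fintype.card X - (low + 2 * up) * (δ * Fintype.card X) ≤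
      low * Fintype.card X - (low + 2 * up) *
        ((univ.filter (fun x : X =>
          (univ.filter (fun c => (stepX c x).isSome)).card < 3)).card : ℝ) := by
    have := mul_le_mul_of_nonneg_left hdef (by positivity : 0 ≤ low + 2 * up)
    linarith
  have h6 := mul_le_mul_of_nonneg_left h5 hBpos.le
  have h7 : (Fintype.card ↥D.B : ℝ) * (Fintype.card X * (low * (1 - δ) - 2 * up * δ)) ≤
      (Fintype.card ↥D.B : ℝ) * (Fintype.card X * (3 * e1)) := by
    push_cast at hfin
    calc _ = (Fintype.card ↥D.B : ℝ) *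
          (low * Fintype.card X - (low + 2 * up) * (δ * Fintype.card X)) := by ring
      _ ≤ _ := h6.trans hfin
      _ = _ := by ring
  have h8 := le_of_mul_le_mul_left h7 hBpos
  have h9 := le_of_mul_le_mul_left h8 hXpos
  linarith

end Vale.Agent.P090
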