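import Mathlib

/-! Definitions for P090: Lipschitz-free spaces and the bounded approximation property. -/

namespace Vale.Agent.P090

/-- The real vector space of all Lipschitz functions `f : M → ℝ` with `f o = 0`. -/
def lip0 {M : Type*} [MetricSpace M] (o : M) : Submodule ℝ (M → ℝ) where
  carrier := {f | f o = 0 ∧ ∃ K : ℝ, ∀ x y, |f x - f y| ≤ K * dist x y}
  zero_mem' := ⟨rfl, 0, fun x y => by simp⟩
  add_mem' := by
    rintro f g ⟨hf, K, hK⟩ ⟨hg, L, hL⟩
    refine ⟨by simp [hf, hg], K + L, fun x y => ?_⟩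
    have h1 := hK x y
    have h2 := hL x y
    have h3 : |(f + g) x - (f + g) y| ≤ |f x - f y| + |g x - g y| := by
      have : (f + g) x - (f + g) y = (f x - f y) + (g x - g y) := by
        simp only [Pi.add_apply]; ring
      rw [this]; exact abs_add_le _ _
    nlinarith
  smul_mem' := by
    rintro c f ⟨hf, K, hK⟩
    refine ⟨by simp [hf], |c| * K, fun x y => ?_⟩
    have h1 := hK x y
    have h3 : (c • f) x - (c • f) y = c * (f x - f y) := by
      simp only [Pi.smul_apply, smul_eq_mul]; ring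
    rw [h3, abs_mul, mul_assoc]
    exact mul_le_mul_of_nonneg_left h1 (abs_nonneg c)

/-- `Lip₀(M)`, as a type. -/
def Lip0 {M : Type*} [MetricSpace M] (o : M) : Type _ := ↥(lip0 o)

namespace Lip0

variable {M : Type*} [MetricSpace M] {o : M}

instance : AddCommGroup (Lip0 o) := inferInstanceAs (AddCommGroup ↥(lip0 o))

instance : Module ℝ (Lip0 o) := inferInstanceAs (Module ℝ ↥(lip0 o))

instance : CoeFun (Lip0 o) (fun _ => M → ℝ) := ⟨fun f => (f : ↥(lip0 o)).1⟩

/-- The Lipschitz constant of `f`: the least `K ≥ 0` with `|f x - f y| ≤ K d(x,y)`. -/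
noncomputable def lipConst (f : Lip0 o) : ℝ :=
  sInf {K : ℝ | 0 ≤ K ∧ ∀ x y, |f x - f y| ≤ K * dist x y}

theorem set_nonempty (f : Lip0 o) :
    {K : ℝ | 0 ≤ K ∧ ∀ x y, |f x - f y| ≤ K * dist x y}.Nonempty := by
  obtain ⟨K, hK⟩ := f.2.2
  refine ⟨|K|, abs_nonneg K, fun x y => (hK x y).trans ?_⟩
  exact mul_le_mul_of_nonneg_right (le_abs_self K) dist_nonneg

theorem bddBelow (f : Lip0 o) :
    BddBelow {K : ℝ | 0 ≤ K ∧ ∀ x y, |f x - f y| ≤ K * dist x y} := ⟨0, fun _ h => h.1⟩

theorem lipConst_nonneg (f : Lip0 o) : 0 ≤ lipConst f :=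
  le_csInf (set_nonempty f) (fun _ h => h.1)

theorem abs_sub_le (f : Lip0 o) (x y : M) : |f x - f y| ≤ lipConst f * dist x y := by
  by_cases hxy : dist x y = 0
  · obtain ⟨K, -, hK⟩ := set_nonempty f
    have := hK x y
    rw [hxy, mul_zero] at this ⊢
    exact this
  · have hpos : 0 < dist x y := lt_of_le_of_ne dist_nonneg (Ne.symm hxy)
    rw [← div_le_iff₀ hpos]
    refine le_csInf (set_nonempty f) ?_
    rintro K ⟨-, hK⟩
    rw [div_le_iff₀ hpos]
    exact hK x y

theorem lipConst_le (f : Lip0 o) {K : ℝ} (h0 : 0 ≤ K)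
    (h : ∀ x y, |f x - f y| ≤ K * dist x y) : lipConst f ≤ K :=
  csInf_le (bddBelow f) ⟨h0, h⟩

theorem apply_base (f : Lip0 o) : f o = 0 := f.2.1

theorem ext' {f g : Lip0 o} (h : ∀ x, f x = g x) : f = g :=
  Subtype.ext (funext h)

/-- The norm on `Lip₀(M)` is the Lipschitz constant. -/
noncomputable def addGroupNorm (o : M) : AddGroupNorm (Lip0 o) where
  toFun := lipConst
  map_zero' := by
    refine le_antisymm (lipConst_le 0 le_rfl fun x y => ?_) (lipConst_nonneg 0)
    have : ((0 : Lip0 o) x) = 0 := rfl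
    have h2 : ((0 : Lip0 o) y) = 0 := rfl
    simp [this, h2]
  add_le' f g := by
    refine lipConst_le _ (add_nonneg (lipConst_nonneg f) (lipConst_nonneg g)) fun x y => ?_
    have h1 := abs_sub_le f x y
    have h2 := abs_sub_le g x y
    have h3 : ((f + g : Lip0 o) x) - ((f + g : Lip0 o) y) = (f x - f y) + (g x - g y) := by
      have e1 : ((f + g : Lip0 o) x) = f x + g x := rfl
      have e2 : ((f + g : Lip0 o) y) = f y + g y := rfl
      rw [e1, e2]; ring
    rw [h3, add_mul]
    exact (abs_add_le _ _).trans (add_le_add h1 h2)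
  neg' f := by
    have key : ∀ g : Lip0 o, lipConst (-g) ≤ lipConst g := fun g => by
      refine lipConst_le _ (lipConst_nonneg g) fun x y => ?_
      have e1 : ((-g : Lip0 o) x) = - g x := rfl
      have e2 : ((-g : Lip0 o) y) = - g y := rfl
      rw [e1, e2]
      have h1 := abs_sub_le g y x
      rw [dist_comm y x] at h1
      have : -g x - -g y = g y - g x := by ring
      rw [this]; exact h1
    refine le_antisymm (key f) ?_
    have := key (-f)
    rwa [neg_neg] at this
  eq_zero_of_map_eq_zero' f hf := by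
    refine ext' fun x => ?_
    have h1 := abs_sub_le f x o
    have h2 : lipConst f = 0 := hf
    rw [h2, zero_mul, apply_base f, sub_zero] at h1
    have h3 : f x = 0 := abs_nonpos_iff.1 h1
    rw [h3]; rfl

noncomputable instance : NormedAddCommGroup (Lip0 o) :=
  AddGroupNorm.toNormedAddCommGroup (addGroupNorm o)

theorem norm_def (f : Lip0 o) : ‖f‖ = lipConst f := rfl

noncomputable instance : NormedSpace ℝ (Lip0 o) where
  norm_smul_le c f := by
    rw [norm_def, norm_def, Real.norm_eq_abs]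
    refine lipConst_le _ (mul_nonneg (abs_nonneg c) (lipConst_nonneg f)) fun x y => ?_
    have e1 : ((c • f : Lip0 o) x) = c * f x := rfl
    have e2 : ((c • f : Lip0 o) y) = c * f y := rfl
    rw [e1, e2, ← mul_sub, abs_mul, mul_assoc]
    exact mul_le_mul_of_nonneg_left (abs_sub_le f x y) (abs_nonneg c)

end Lip0

/-- The evaluation functional `δ_x : f ↦ f x` on `Lip₀(M)`. -/
noncomputable def delta {M : Type*} [MetricSpace M] (o x : M) : StrongDual ℝ (Lip0 o) :=
  LinearMap.mkContinuous
    { toFun := fun f => f x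
      map_add' := fun _ _ => rfl
      map_smul' := fun _ _ => rfl }
    (dist x o)
    (fun f => by
      have h := Lip0.abs_sub_le f x o
      rw [Lip0.apply_base f, sub_zero] at h
      rw [Lip0.norm_def, Real.norm_eq_abs, mul_comm]
      exact h)

/-- The Lipschitz-free space `F(M)`: the closed linear span of the evaluation functionals in the
dual of `Lip₀(M)`. -/
noncomputable def LipFree {M : Type*} [MetricSpace M] (o : M) :
    Submodule ℝ (StrongDual ℝ (Lip0 o)) :=
  (Submodule.span ℝ (Set.range (delta o))).topologicalClosure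

/-- `X` has the `lam`-bounded approximation property: for every compact `C ⊆ X` and `ε > 0` there
is a bounded finite-rank operator `T` on `X` with `‖T‖ ≤ lam` and `‖T u - u‖ < ε` on `C`. -/
def HasBAPWith (X : Type*) [NormedAddCommGroup X] [NormedSpace ℝ X] (lam : ℝ) : Prop :=
  ∀ C : Set X, IsCompact C → ∀ ε : ℝ, 0 < ε → ∃ T : X →L[ℝ] X,
    FiniteDimensional ℝ (LinearMap.range (T : X →ₗ[ℝ] X)) ∧ ‖T‖ ≤ lam ∧
      ∀ u ∈ C, ‖T u - u‖ < ε

/-- `X` has the bounded approximation property (BAP). -/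
def HasBAP (X : Type*) [NormedAddCommGroup X] [NormedSpace ℝ X] : Prop :=
  ∃ lam : ℝ, 1 ≤ lam ∧ HasBAPWith X lam

/-- `M` is uniformly discrete. -/
def UniformlyDiscrete (M : Type*) [MetricSpace M] : Prop :=
  ∃ ε : ℝ, 0 < ε ∧ ∀ x y : M, x ≠ y → ε ≤ dist x y

end Vale.Agent.P090
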