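import Vale.Agent.P090.Test

/-! The metric on `V × S` and Lipschitz estimates for the test functions. -/

namespace Vale.Agent.P090

open scoped NNReal

variable {k : ℕ} {V Y S : Type} [MulAction (FreeGroup (Fin k)) Y] [MulAction (FreeGroup (Fin k)) S]

/-- Adjacency by a real edge. -/
def RAdj (step : Letter k → V → Option V) (p q : V × S) : Prop :=
  ∃ c, step c p.1 = some q.1 ∧ q.2 = FreeGroup.mk [c] • p.2

theorem RAdj.symm {step : Letter k → V → Option V}
    (hinv : ∀ c u v, step c u = some v → step (linv c) v = some u) {p q : V × S}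
    (h : RAdj step p q) : RAdj step q p := by
  obtain ⟨c, h1, h2⟩ := h
  refine ⟨linv c, hinv _ _ _ h1, ?_⟩
  rw [h2, mk_linv, inv_smul_smul]

open Classical in
/-- The length function generating the metric. -/
noncomputable def d0 (step : Letter k → V → Option V) (hS DS : S → ℝ≥0) (p q : V × S) : ℝ≥0 :=
  if p = q then 0 else if RAdj step p q then 1 else if p.2 = q.2 then hS p.2 else DS p.2 + DS q.2

theorem d0_self (step : Letter k → V → Option V) (hS DS : S → ℝ≥0) (p : V × S) :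
    d0 step hS DS p p = 0 := by
  unfold d0; rw [if_pos rfl]

theorem d0_comm (step : Letter k → V → Option V)
    (hinv : ∀ c u v, step c u = some v → step (linv c) v = some u) (hS DS : S → ℝ≥0)
    (p q : V × S) : d0 step hS DS p q = d0 step hS DS q p := by
  unfold d0
  by_cases h1 : p = q
  · rw [if_pos h1, if_pos h1.symm]
  · rw [if_neg h1, if_neg (Ne.symm h1)]
    by_cases h2 : RAdj step p q
    · rw [if_pos h2, if_pos (h2.symm hinv)]
    · have h2' : ¬ RAdj step q p := fun h => h2 (RAdj.symm hinv h)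
      rw [if_neg h2, if_neg h2']
      by_cases h3 : p.2 = q.2
      · rw [if_pos h3, if_pos h3.symm, h3]
      · rw [if_neg h3, if_neg (Ne.symm h3), add_comm]

theorem one_le_d0 (step : Letter k → V → Option V) {hS DS : S → ℝ≥0} (h1 : ∀ s, 1 ≤ hS s)
    (h2 : ∀ s, 1 ≤ DS s) {p q : V × S} (hpq : p ≠ q) : 1 ≤ d0 step hS DS p q := by
  unfold d0
  rw [if_neg hpq]
  split_ifs
  · exact le_rfl
  · exact h1 _
  · exact le_add_right (h2 _)

/-- Invariance of a function on `S`. -/
def Inv (k : ℕ) [MulAction (FreeGroup (Fin k)) S] {β : Type} (F : S → β) : Prop :=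
  ∀ (g : FreeGroup (Fin k)) (s : S), F (g • s) = F s

/-- Lipschitz estimate for the test functions. -/
theorem tf_lip (step : Letter k → V → Option V)
    (ι : V → Y) (hι : ∀ c u v, step c u = some v → FreeGroup.mk [c] • ι u = ι v)
    {hS DS : S → ℝ≥0} (hDi : Inv k DS) (hhi : Inv k hS) {r : ℕ} (hr : 2 ≤ r) {s : S}
    (hs : FreeAt k r s) {σ : Y → ℝ} (hσ : ∀ y, |σ y| ≤ 1)
    (hpos : 0 < (hS s : ℝ)) (h1 : 1 / ((r:ℝ) - 1) ≤ 2 / hS s) (h2 : (hS s : ℝ) ≤ DS s)
    (p q : V × S) :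
    |tf k ι r s σ p - tf k ι r s σ q| ≤ 2 / hS s * d0 step hS DS p q := by
  unfold d0
  by_cases hpq : p = q
  · rw [if_pos hpq, hpq]; simp
  rw [if_neg hpq]
  by_cases hadj : RAdj step p q
  · rw [if_pos hadj]
    obtain ⟨c, h3, h4⟩ := hadj
    have := tf_real step ι hι hr hs hσ h3 p.2
    obtain ⟨p1, p2⟩ := p
    obtain ⟨q1, q2⟩ := q
    simp only at h3 h4 this
    rw [h4]
    simpa using this.trans h1
  rw [if_neg hadj]
  have hbound : |tf k ι r s σ p - tf k ι r s σ q| ≤ 2 := by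
    have e1 := abs_tf_le (k := k) ι (r := r) (s := s) hσ p
    have e2 := abs_tf_le (k := k) ι (r := r) (s := s) hσ q
    rw [abs_le] at e1 e2 ⊢
    constructor <;> linarith [e1.1, e1.2, e2.1, e2.2]
  by_cases hA : ∃ g : FreeGroup (Fin k), g.norm ≤ r ∧ g • p.2 = s
  · obtain ⟨g, -, hg⟩ := hA
    have e1 : hS p.2 = hS s := by rw [← hg, hhi]
    have e2 : DS p.2 = DS s := by rw [← hg, hDi]
    split_ifs with h5
    · rw [e1, div_mul_cancel₀ _ hpos.ne']
      exact hbound
    · refine hbound.trans ?_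
      have e3 : (hS s : ℝ) ≤ ((DS p.2 + DS q.2 : ℝ≥0) : ℝ) := by
        rw [NNReal.coe_add, e2]
        have : (0:ℝ) ≤ DS q.2 := (DS q.2).2
        linarith
      calc (2:ℝ) = 2 / hS s * hS s := (div_mul_cancel₀ _ hpos.ne').symm
        _ ≤ _ := mul_le_mul_of_nonneg_left e3 (by positivity)
  · by_cases hB : ∃ g : FreeGroup (Fin k), g.norm ≤ r ∧ g • q.2 = s
    · obtain ⟨g, hg0, hg⟩ := hB
      have e2 : DS q.2 = DS s := by rw [← hg, hDi]
      split_ifs with h5
      · exfalso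
        exact hA ⟨g, hg0, by rw [h5]; exact hg⟩
      · refine hbound.trans ?_
        have e3 : (hS s : ℝ) ≤ ((DS p.2 + DS q.2 : ℝ≥0) : ℝ) := by
          rw [NNReal.coe_add, e2]
          have : (0:ℝ) ≤ DS p.2 := (DS p.2).2
          linarith
        calc (2:ℝ) = 2 / hS s * hS s := (div_mul_cancel₀ _ hpos.ne').symm
          _ ≤ _ := mul_le_mul_of_nonneg_left e3 (by positivity)
    · rw [tf_eq_zero ι σ hA, tf_eq_zero ι σ hB]
      simp only [sub_zero, abs_zero]
      positivity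

/-- Better Lipschitz estimate for the constant sign pattern. -/
theorem tf_lip_one (step : Letter k → V → Option V)
    (ι : V → Y) (hι : ∀ c u v, step c u = some v → FreeGroup.mk [c] • ι u = ι v)
    {hS DS : S → ℝ≥0} (hDi : Inv k DS) {r : ℕ} (hr : 2 ≤ r) {s : S}
    (hs : FreeAt k r s) (h2 : (r : ℝ) - 1 ≤ DS s)
    (p q : V × S) :
    |tf k ι r s (fun _ => 1) p - tf k ι r s (fun _ => 1) q| ≤
      1 / ((r:ℝ) - 1) * d0 step hS DS p q := by
  have hr1 : (0:ℝ) < (r:ℝ) - 1 := by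
    have : (2:ℝ) ≤ r := by exact_mod_cast hr
    linarith
  have hσ : ∀ y : Y, |(fun _ => (1:ℝ)) y| ≤ 1 := fun y => by simp
  unfold d0
  by_cases hpq : p = q
  · rw [if_pos hpq, hpq]; simp
  rw [if_neg hpq]
  by_cases hadj : RAdj step p q
  · rw [if_pos hadj]
    obtain ⟨c, h3, h4⟩ := hadj
    have := tf_real step ι hι hr hs hσ h3 p.2
    obtain ⟨p1, p2⟩ := p
    obtain ⟨q1, q2⟩ := q
    simp only at h3 h4 this
    rw [h4]
    simpa using this
  rw [if_neg hadj]
  by_cases h5 : p.2 = q.2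
  · rw [if_pos h5]
    have : tf k ι r s (fun _ => 1) p = tf k ι r s (fun _ => 1) q := by
      unfold tf
      rw [h5]
    rw [this]; simp only [sub_self, abs_zero]; positivity
  rw [if_neg h5]
  have hnn : ∀ z : V × S, 0 ≤ tf k ι r s (fun _ => (1:ℝ)) z := by
    intro z
    unfold tf
    split_ifs with h
    · simpa using phi_nonneg _ _
    · exact le_rfl
  have hbound : |tf k ι r s (fun _ => (1:ℝ)) p - tf k ι r s (fun _ => (1:ℝ)) q| ≤ 1 := by
    have e1 := abs_tf_le (k := k) ι (r := r) (s := s) hσ p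
    have e2 := abs_tf_le (k := k) ι (r := r) (s := s) hσ q
    have e3 := hnn p
    have e4 := hnn q
    rw [abs_le] at e1 e2 ⊢
    constructor <;> linarith [e1.1, e1.2, e2.1, e2.2]
  have fin : ∀ D : ℝ, (r:ℝ) - 1 ≤ D →
      |tf k ι r s (fun _ => (1:ℝ)) p - tf k ι r s (fun _ => (1:ℝ)) q| ≤ 1 / ((r:ℝ) - 1) * D := by
    intro D hD
    refine hbound.trans ?_
    rw [one_div, inv_mul_eq_div, le_div_iff₀ hr1]
    linarith
  by_cases hA : ∃ g : FreeGroup (Fin k), g.norm ≤ r ∧ g • p.2 = s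
  · obtain ⟨g, -, hg⟩ := hA
    have e2 : DS p.2 = DS s := by rw [← hg, hDi]
    apply fin
    rw [NNReal.coe_add, e2]
    have : (0:ℝ) ≤ DS q.2 := (DS q.2).2
    linarith
  · by_cases hB : ∃ g : FreeGroup (Fin k), g.norm ≤ r ∧ g • q.2 = s
    · obtain ⟨g, -, hg⟩ := hB
      have e2 : DS q.2 = DS s := by rw [← hg, hDi]
      apply fin
      rw [NNReal.coe_add, e2]
      have : (0:ℝ) ≤ DS p.2 := (DS p.2).2
      linarith
    · rw [tf_eq_zero ι _ hA, tf_eq_zero ι _ hB]
      simp only [sub_zero, abs_zero]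
      positivity

end Vale.Agent.P090
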