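import Mathlib

namespace Vale.Agent.P090

namespace FinQuotAux

variable {k : ℕ}

/-- the ball of radius `L` -/
def ball (k L : ℕ) : Set (FreeGroup (Fin k)) := {g | g.norm ≤ L}

lemma ball_finite (k L : ℕ) : (ball k L).Finite := by
  have h : (ball k L) ⊆ (FreeGroup.toWord : FreeGroup (Fin k) → _) ⁻¹'
      {l : List (Fin k × Bool) | l.length ≤ L} := fun g hg => hg
  exact ((List.finite_length_le (Fin k × Bool) L).preimage
    (FreeGroup.toWord_injective.injOn)).subset h

lemma mk_mem {L : ℕ} (l : List (Fin k × Bool)) (h : l.length ≤ L) :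
    FreeGroup.mk l ∈ ball k L := FreeGroup.norm_mk_le.trans h

end FinQuotAux

open FinQuotAux

theorem exists_quot (k L : ℕ) :
    ∃ (Q : Type) (_ : Group Q) (_ : Fintype Q) (ψ : FreeGroup (Fin k) →* Q),
      ∀ g : FreeGroup (Fin k), g ≠ 1 → g.norm ≤ L → ψ g ≠ 1 := by
  classical
  have : Fintype (ball k L) := (ball_finite k L).fintype
  -- partial left multiplications
  have hperm : ∀ i : Fin k, ∃ π : Equiv.Perm (ball k L), ∀ x : ball k L,
      ∀ h : FreeGroup.of i * (x : FreeGroup (Fin k)) ∈ ball k L,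
        π x = ⟨FreeGroup.of i * x, h⟩ := by
    intro i
    set e : {x : ball k L // FreeGroup.of i * (x : FreeGroup (Fin k)) ∈ ball k L} ≃
        {y : ball k L // (FreeGroup.of i)⁻¹ * (y : FreeGroup (Fin k)) ∈ ball k L} :=
      { toFun := fun x => ⟨⟨FreeGroup.of i * x.1, x.2⟩, by simp⟩
        invFun := fun y => ⟨⟨(FreeGroup.of i)⁻¹ * y.1, y.2⟩, by simp⟩
        left_inv := fun x => by simp
        right_inv := fun y => by simp } with he
    refine ⟨e.extendSubtype, fun x h => ?_⟩
    rw [Equiv.extendSubtype_apply_of_mem e x h]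
    rfl
  choose π hπ using hperm
  refine ⟨Equiv.Perm (ball k L), inferInstance, inferInstance, FreeGroup.lift π, ?_⟩
  have h1 : (1 : FreeGroup (Fin k)) ∈ ball k L := by
    show (1 : FreeGroup (Fin k)).norm ≤ L
    simp
  have key : ∀ (l : List (Fin k × Bool)) (hl : l.length ≤ L),
      FreeGroup.lift π (FreeGroup.mk l) ⟨1, h1⟩ = ⟨FreeGroup.mk l, mk_mem l hl⟩ := by
    intro l
    induction l with
    | nil =>
      intro hl
      have : (FreeGroup.mk [] : FreeGroup (Fin k)) = 1 := rfl
      simp [this]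
    | cons a l ih =>
      intro hl
      obtain ⟨i, b⟩ := a
      have hl' : l.length ≤ L := by
        simp only [List.length_cons] at hl; omega
      have hmk : (FreeGroup.mk ((i, b) :: l) : FreeGroup (Fin k)) =
          FreeGroup.mk [(i, b)] * FreeGroup.mk l := by
        rw [FreeGroup.mul_mk]; rfl
      have hmem := mk_mem ((i, b) :: l) hl
      rw [Subtype.ext_iff]
      simp only [hmk, map_mul, Equiv.Perm.mul_apply, ih hl']
      cases b with
      | true =>
        have e1 : (FreeGroup.mk [(i, true)] : FreeGroup (Fin k)) = FreeGroup.of i := rfl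
        rw [hmk, e1] at hmem
        rw [e1, FreeGroup.lift_apply_of, hπ i ⟨FreeGroup.mk l, mk_mem l hl'⟩ hmem]
      | false =>
        have e1 : (FreeGroup.mk [(i, false)] : FreeGroup (Fin k)) = (FreeGroup.of i)⁻¹ := rfl
        rw [hmk, e1] at hmem
        rw [e1, map_inv, FreeGroup.lift_apply_of]
        have e2 : FreeGroup.of i * ((⟨(FreeGroup.of i)⁻¹ * FreeGroup.mk l, hmem⟩ : ball k L) :
            FreeGroup (Fin k)) = FreeGroup.mk l := by simp
        have e3 := hπ i ⟨(FreeGroup.of i)⁻¹ * FreeGroup.mk l, hmem⟩ (by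
          rw [e2]; exact mk_mem l hl')
        have e4 : (π i)⁻¹ ⟨FreeGroup.mk l, mk_mem l hl'⟩ =
            ⟨(FreeGroup.of i)⁻¹ * FreeGroup.mk l, hmem⟩ := by
          rw [Equiv.Perm.inv_eq_iff_eq, e3]
          exact Subtype.ext e2.symm
        rw [e4]
  intro g hg hgL hone
  apply hg
  have h3 := congrArg Subtype.val (key g.toWord hgL)
  simp only [FreeGroup.mk_toWord, hone, Equiv.Perm.coe_one, id_eq] at h3
  exact h3.symm

end Vale.Agent.P090
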