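import Mathlib

/-! Short definitions for P090: free spaces of pointed metric spaces, described by the dual norm. -/

namespace Vale.Agent.P090

/-- `X`, with the map `δ : M → X`, is the Lipschitz-free space of the pointed metric space
`(M, o)`: `X` is complete, the linear span of the `δ x` is dense in `X`, and for all finite
combinations of points the norm of `∑ a x • δ x` is its norm as a functional on `Lip₀(M)`, that is
the supremum of `|∑ a x * f x|` over the functions `f : M → ℝ` with `f o = 0` and Lipschitz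
constant at most one. -/
structure IsFreeSpace {M : Type*} [MetricSpace M] (o : M) {X : Type*} [NormedAddCommGroup X]
    [NormedSpace ℝ X] (δ : M → X) : Prop where
  complete : CompleteSpace X
  dense : ∀ (u : X) (ε : ℝ), 0 < ε → ∃ a : M →₀ ℝ, ‖u - ∑ x ∈ a.support, a x • δ x‖ < ε
  norm_eq : ∀ a : M →₀ ℝ,
    IsLUB {t : ℝ | ∃ f : M → ℝ, f o = 0 ∧ (∀ x y, |f x - f y| ≤ dist x y) ∧
      t = |∑ x ∈ a.support, a x * f x|} ‖∑ x ∈ a.support, a x • δ x‖

/-- `X` has the `lam`-bounded approximation property: for every compact `C ⊆ X` and `ε > 0` there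
is a bounded finite-rank operator `T` on `X` with `‖T‖ ≤ lam` and `‖T u - u‖ < ε` on `C`. -/
def BAPWith (X : Type*) [NormedAddCommGroup X] [NormedSpace ℝ X] (lam : ℝ) : Prop :=
  ∀ C : Set X, IsCompact C → ∀ ε : ℝ, 0 < ε → ∃ T : X →L[ℝ] X,
    FiniteDimensional ℝ (LinearMap.range (T : X →ₗ[ℝ] X)) ∧ ‖T‖ ≤ lam ∧
      ∀ u ∈ C, ‖T u - u‖ < ε

end Vale.Agent.P090
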