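import Vale.Agent.P090.Free
import Vale.Agent.P090.Bap

/-! The closed span of the evaluations is the free space, and every free space is isometric
to it. -/

namespace Vale.Agent.P090

open BapAux

variable {M : Type*} [MetricSpace M]

theorem coe_sum_dl (o : M) (a : M →₀ ℝ) :
    ((∑ x ∈ a.support, a x • dl o x : LipFree o) : StrongDual ℝ (Lip0 o)) = comb o a := by
  rw [AddSubmonoidClass.coe_finsetSum]
  rfl

theorem norm_sum_dl (o : M) (a : M →₀ ℝ) :
    ‖(∑ x ∈ a.support, a x • dl o x : LipFree o)‖ = ‖comb o a‖ := by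
  rw [← coe_sum_dl]; rfl

/-- A function with `f o = 0` and Lipschitz constant at most `1`, as an element of `Lip₀(M)`. -/
def mkLip (o : M) (f : M → ℝ) (h0 : f o = 0) (h : ∀ x y, |f x - f y| ≤ dist x y) : Lip0 o :=
  ⟨f, h0, 1, fun x y => by rw [one_mul]; exact h x y⟩

theorem norm_mkLip_le (o : M) (f : M → ℝ) (h0 : f o = 0) (h : ∀ x y, |f x - f y| ≤ dist x y) :
    ‖mkLip o f h0 h‖ ≤ 1 := by
  rw [Lip0.norm_def]
  exact Lip0.lipConst_le _ zero_le_one fun x y => by rw [one_mul]; exact h x y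

theorem isFreeSpace_dl (o : M) : IsFreeSpace o (dl o) where
  complete := (Submodule.isClosed_topologicalClosure _).completeSpace_coe
  dense u ε hε := by
    obtain ⟨a, ha⟩ := exists_comb o u hε
    refine ⟨a, ?_⟩
    have : ((u - ∑ x ∈ a.support, a x • dl o x : LipFree o) : StrongDual ℝ (Lip0 o)) =
        (u : StrongDual ℝ (Lip0 o)) - comb o a := by
      rw [← coe_sum_dl]; rfl
    have h2 : ‖(u - ∑ x ∈ a.support, a x • dl o x : LipFree o)‖ =
        ‖(u : StrongDual ℝ (Lip0 o)) - comb o a‖ := by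
      rw [← this]; rfl
    rw [h2]; exact ha
  norm_eq a := by
    rw [norm_sum_dl]
    constructor
    · rintro t ⟨f, h0, h1, rfl⟩
      have h := (comb o a).le_opNorm (mkLip o f h0 h1)
      rw [comb_apply, Real.norm_eq_abs] at h
      refine (le_trans ?_ h).trans ?_
      · exact le_of_eq rfl
      · exact mul_le_of_le_one_right (norm_nonneg _) (norm_mkLip_le o f h0 h1)
    · intro b hb
      have hb0 : 0 ≤ b := by
        refine le_trans (abs_nonneg _) (hb ⟨fun _ => 0, rfl, fun x y => by simp, rfl⟩)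
      refine ContinuousLinearMap.opNorm_le_of_unit_norm hb0 fun f hf => ?_
      rw [comb_apply, Real.norm_eq_abs]
      refine hb ⟨fun x => f x, Lip0.apply_base f, fun x y => ?_, rfl⟩
      have := Lip0.abs_sub_le f x y
      rw [← Lip0.norm_def, hf, one_mul] at this
      exact this

/-- any two free spaces of the same pointed space are isometrically isomorphic. -/
theorem IsFreeSpace.exists_equiv {o : M} {X Y : Type*} [NormedAddCommGroup X] [NormedSpace ℝ X]
    [NormedAddCommGroup Y] [NormedSpace ℝ Y] {δ : M → X} {η : M → Y} (hX : IsFreeSpace o δ)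
    (hY : IsFreeSpace o η) : Nonempty (X ≃ₗᵢ[ℝ] Y) := by
  have := hX.complete
  have := hY.complete
  refine ⟨(LinearEquiv.refl ℝ (M →₀ ℝ)).extendOfIsometry (Finsupp.linearCombination ℝ δ)
    (Finsupp.linearCombination ℝ η) ?_ ?_ ?_⟩
  · intro u
    rw [Metric.mem_closure_iff]
    intro ε hε
    obtain ⟨a, ha⟩ := hX.dense u ε hε
    exact ⟨_, ⟨a, rfl⟩, by rw [dist_eq_norm]; exact ha⟩
  · intro u
    rw [Metric.mem_closure_iff]
    intro ε hε
    obtain ⟨a, ha⟩ := hY.dense u ε hε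
    exact ⟨_, ⟨a, rfl⟩, by rw [dist_eq_norm]; exact ha⟩
  · intro a
    exact (hY.norm_eq a).unique (hX.norm_eq a)

/-- the bounded approximation property passes through isometric isomorphisms. -/
theorem BAPWith.congr {X Y : Type*} [NormedAddCommGroup X] [NormedSpace ℝ X]
    [NormedAddCommGroup Y] [NormedSpace ℝ Y] (e : X ≃ₗᵢ[ℝ] Y) {lam : ℝ} (h : BAPWith X lam) :
    BAPWith Y lam := by
  intro C hC ε hε
  obtain ⟨T, hT, hn, hu⟩ := h (e.symm '' C) (hC.image e.symm.continuous) ε hε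
  refine ⟨(e : X →L[ℝ] Y).comp (T.comp (e.symm : Y →L[ℝ] X)), ?_, ?_, ?_⟩
  · have := hT
    have : LinearMap.range
        ((((e : X →L[ℝ] Y).comp (T.comp (e.symm : Y →L[ℝ] X)) : Y →L[ℝ] Y)) : Y →ₗ[ℝ] Y) ≤
        (LinearMap.range (T : X →ₗ[ℝ] X)).map (e.toLinearEquiv : X →ₗ[ℝ] Y) := by
      rintro _ ⟨y, rfl⟩
      exact ⟨T (e.symm y), ⟨e.symm y, rfl⟩, rfl⟩
    exact Submodule.finiteDimensional_of_le this
  · refine le_trans (ContinuousLinearMap.opNorm_le_bound _ (norm_nonneg T) fun y => ?_) hn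
    have h1 : ‖((e : X →L[ℝ] Y).comp (T.comp (e.symm : Y →L[ℝ] X))) y‖ = ‖T (e.symm y)‖ :=
      e.norm_map _
    rw [h1]
    have h2 := T.le_opNorm (e.symm y)
    rwa [e.symm.norm_map] at h2
  · intro u hu'
    have h1 := hu (e.symm u) ⟨u, hu', rfl⟩
    have h2 : ((e : X →L[ℝ] Y).comp (T.comp (e.symm : Y →L[ℝ] X))) u - u =
        e (T (e.symm u) - e.symm u) := by
      rw [map_sub, e.apply_symm_apply]; rfl
    rw [h2, e.norm_map]
    exact h1

theorem not_BAPWith_of_isFreeSpace {o : M} {X : Type*} [NormedAddCommGroup X] [NormedSpace ℝ X]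
    {δ : M → X} (hX : IsFreeSpace o δ) {lam : ℝ} (h : ¬ HasBAPWith (LipFree o) lam) :
    ¬ BAPWith X lam := fun hX' => by
  obtain ⟨e⟩ := hX.exists_equiv (isFreeSpace_dl o)
  exact h (hX'.congr e)

end Vale.Agent.P090
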