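import Mathlib

/-! (G1), (G2): almost cubic graphs of large girth; short non-backtracking paths are injective. -/

namespace Vale.Agent.P090

namespace GirthAux

open SimpleGraph

/-- the walk `l a, l (a+1), …, l (a+m)` -/
theorem exists_walk {V : Type*} (G : SimpleGraph V) (l : ℕ → V) (a m : ℕ)
    (hadj : ∀ i, a ≤ i → i < a + m → G.Adj (l i) (l (i + 1))) :
    ∃ p : G.Walk (l a) (l (a + m)), p.length = m ∧
      p.support = (List.range (m + 1)).map (fun i => l (a + i)) ∧
      p.edges = (List.range m).map (fun i => s(l (a + i), l (a + i + 1))) := by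
  induction m generalizing a with
  | zero => exact ⟨Walk.nil, rfl, by simp, by simp⟩
  | succ m ih =>
    obtain ⟨p, hp1, hp2, hp3⟩ := ih (a + 1) (fun i h1 h2 => hadj i (by omega) (by omega))
    have e : a + 1 + m = a + (m + 1) := by omega
    have h0 : G.Adj (l a) (l (a + 1)) := hadj a le_rfl (by omega)
    refine ⟨Walk.cons h0 (p.copy rfl (by rw [e])), ?_, ?_, ?_⟩
    · simp [hp1]
    · rw [Walk.support_cons, Walk.support_copy, hp2, List.range_succ_eq_map (n := m + 1)]
      simp only [List.map_cons, List.map_map, Nat.add_zero]
      congr 1
      refine List.map_congr_left fun i _ => ?_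
      simp only [Function.comp]
      congr 1
      omega
    · rw [Walk.edges_cons, Walk.edges_copy, hp3, List.range_succ_eq_map (n := m)]
      simp only [List.map_cons, List.map_map, Nat.add_zero]
      congr 1
      refine List.map_congr_left fun i _ => ?_
      simp only [Function.comp]
      have e1 : a + 1 + i = a + i.succ := by omega
      rw [e1]

theorem split_edge {V : Type*} {G : SimpleGraph V} (x y : V) {u v : V} (p : G.Walk u v)
    (h : s(x, y) ∈ p.edges) :
    ∃ a b, ((a = x ∧ b = y) ∨ (a = y ∧ b = x)) ∧ ∃ (p1 : G.Walk u a) (p2 : G.Walk b v),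
      p.edges = p1.edges ++ s(x, y) :: p2.edges := by
  induction p with
  | nil => simp at h
  | @cons u w v huw p ih =>
    rw [Walk.edges_cons, List.mem_cons] at h
    rcases h with h | h
    · rw [Sym2.eq_iff] at h
      refine ⟨u, w, ?_, Walk.nil, p, ?_⟩
      · rcases h with h | h
        · exact Or.inl ⟨h.1.symm, h.2.symm⟩
        · exact Or.inr ⟨h.2.symm, h.1.symm⟩
      · rw [Walk.edges_cons, Walk.edges_nil, List.nil_append]
        congr 1
        rw [Sym2.eq_iff]
        rcases h with h | h
        · exact Or.inl ⟨h.1.symm, h.2.symm⟩
        · exact Or.inr ⟨h.2.symm, h.1.symm⟩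
    · obtain ⟨a, b, hab, p1, p2, hp⟩ := ih h
      refine ⟨a, b, hab, Walk.cons huw p1, p2, ?_⟩
      rw [Walk.edges_cons, Walk.edges_cons, hp, List.cons_append]

/-- the set of vertices at walk-distance at most `k` from `x`. -/
def ball {V : Type*} (G : SimpleGraph V) (x : V) (k : ℕ) : Set V :=
  {y | ∃ p : G.Walk x y, p.length ≤ k}

theorem ball_succ_subset {V : Type*} (G : SimpleGraph V) (x : V) (k : ℕ) :
    ball G x (k + 1) ⊆ ball G x k ∪ ⋃ z ∈ ball G x k, G.neighborSet z := by
  rintro y ⟨p, hp⟩
  have key : ∀ (y : V) (q : G.Walk y x), q.length ≤ k + 1 →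
      y ∈ ball G x k ∪ ⋃ z ∈ ball G x k, G.neighborSet z := by
    intro y q hq
    cases q with
    | nil => exact Or.inl ⟨Walk.nil, by simp⟩
    | @cons _ w _ h r =>
      right
      simp only [Set.mem_iUnion, exists_prop]
      refine ⟨w, ⟨r.reverse, ?_⟩, h.symm⟩
      rw [Walk.length_reverse]
      rw [Walk.length_cons] at hq
      omega
  exact key y p.reverse (by rw [Walk.length_reverse]; exact hp)

theorem ncard_ball_le {V : Type*} [Finite V] (G : SimpleGraph V)
    (hG : ∀ x, (G.neighborSet x).ncard ≤ 3) (x : V) (k : ℕ) : (ball G x k).ncard ≤ 4 ^ k := by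
  classical
  have : Fintype V := Fintype.ofFinite V
  induction k with
  | zero =>
    have : ball G x 0 ⊆ {x} := by
      rintro y ⟨p, hp⟩
      have hp0 : p.length = 0 := by omega
      exact (Walk.eq_of_length_eq_zero hp0).symm
    calc (ball G x 0).ncard ≤ ({x} : Set V).ncard := Set.ncard_le_ncard this (Set.toFinite _)
      _ = 1 := Set.ncard_singleton x
      _ = 4 ^ 0 := by norm_num
  | succ k ih =>
    have h1 := Set.ncard_le_ncard (ball_succ_subset G x k) (Set.toFinite _)
    have h2 := Set.ncard_union_le (ball G x k) (⋃ z ∈ ball G x k, G.neighborSet z)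
    have h3 : (⋃ z ∈ ball G x k, G.neighborSet z).ncard ≤ (ball G x k).ncard * 3 := by
      have e1 : (⋃ z ∈ ball G x k, G.neighborSet z) =
          (((ball G x k).toFinset.biUnion fun z => (G.neighborSet z).toFinset : Finset V) :
            Set V) := by
        ext y; simp
      rw [e1, Set.ncard_coe_finset]
      refine (Finset.card_biUnion_le_card_mul _ _ 3 fun z _ => ?_).trans ?_
      · have := hG z
        rwa [Set.ncard_eq_toFinset_card'] at this
      · rw [Set.ncard_eq_toFinset_card']
    calc (ball G x (k + 1)).ncard ≤ _ := h1
      _ ≤ _ := h2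
      _ ≤ (ball G x k).ncard + (ball G x k).ncard * 3 := by omega
      _ ≤ 4 ^ (k + 1) := by rw [pow_succ]; omega

end GirthAux

open GirthAux SimpleGraph in
/- (G2) -/
theorem nodup_of_girth {V : Type*} (G : SimpleGraph V) (g : ℕ)
    (hG : ∀ (v : V) (c : G.Walk v v), c.IsCycle → g < c.length) (l : ℕ → V) (n : ℕ) (hn : n ≤ g)
    (hadj : ∀ i < n, G.Adj (l i) (l (i + 1))) (hnb : ∀ i, i + 2 ≤ n → l i ≠ l (i + 2)) :
    ∀ i j, i ≤ n → j ≤ n → l i = l j → i = j := by
  classical
  -- strong induction on the difference
  have key : ∀ m i, 1 ≤ m → i + m ≤ n → l i ≠ l (i + m) := by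
    intro m
    induction m using Nat.strong_induction_on with
    | _ m ih =>
      intro i hm him heq
      have hm1 : m ≠ 1 := by
        rintro rfl
        exact (hadj i (by omega)).ne heq
      have hm2 : m ≠ 2 := by
        rintro rfl
        exact hnb i him heq
      -- the path l (i+1), ..., l (i+m)
      obtain ⟨p, hp1, hp2, hp3⟩ := exists_walk G l (i + 1) (m - 1)
        (fun j h1 h2 => hadj j (by omega))
      have hinj : ∀ a b, i + 1 ≤ a → a ≤ i + m → i + 1 ≤ b → b ≤ i + m → l a = l b → a = b := by
        intro a b ha ha' hb hb' hab
        rcases lt_trichotomy a b with h | h | h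
        · exfalso
          refine ih (b - a) (by omega) a (by omega) (by omega) ?_
          have : a + (b - a) = b := by omega
          rw [this]; exact hab
        · exact h
        · exfalso
          refine ih (a - b) (by omega) b (by omega) (by omega) ?_
          have : b + (a - b) = a := by omega
          rw [this]; exact hab.symm
      have hpath : p.IsPath := by
        rw [Walk.isPath_def, hp2]
        refine List.Nodup.map_on ?_ List.nodup_range
        intro a ha b hb hab
        rw [List.mem_range] at ha hb
        have := hinj (i + 1 + a) (i + 1 + b) (by omega) (by omega) (by omega) (by omega) hab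
        omega
      have e : l (i + 1 + (m - 1)) = l i := by
        rw [heq]; congr 1; omega
      have hc : (Walk.cons (hadj i (by omega)) (p.copy rfl e)).IsCycle := by
        rw [Walk.cons_isCycle_iff]
        refine ⟨by simpa using hpath, ?_⟩
        rw [Walk.edges_copy, hp3]
        intro hmem
        rw [List.mem_map] at hmem
        obtain ⟨a, ha, hae⟩ := hmem
        rw [List.mem_range] at ha
        rw [Sym2.eq_iff] at hae
        rcases hae with ⟨h1, h2⟩ | ⟨h1, h2⟩
        · -- l (i+1+a) = l i = l (i+m), l (i+1+a+1) = l (i+1)
          have := hinj (i + 1 + a + 1) (i + 1) (by omega) (by omega) (by omega) (by omega) h2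
          omega
        · have h3 := hinj (i + 1 + a) (i + 1) (by omega) (by omega) (by omega) (by omega) h1
          have ha0 : a = 0 := by omega
          subst ha0
          exact hnb i (by omega) h2.symm
      have hlen := hG _ _ hc
      rw [Walk.length_cons, Walk.length_copy, hp1] at hlen
      omega
  intro i j hi hj hij
  rcases lt_trichotomy i j with h | h | h
  · exfalso
    refine key (j - i) i (by omega) (by omega) ?_
    have : i + (j - i) = j := by omega
    rw [this]; exact hij
  · exact h
  · exfalso
    refine key (i - j) j (by omega) (by omega) ?_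
    have : j + (i - j) = i := by omega
    rw [this]; exact hij.symm

open GirthAux SimpleGraph in
/- (G1) -/
theorem exists_graph (g N : ℕ) (hg : 1 ≤ g) :
    ∃ G : SimpleGraph (Fin N), (∀ x, (G.neighborSet x).ncard ≤ 3) ∧
      (∀ (v : Fin N) (c : G.Walk v v), c.IsCycle → g < c.length) ∧
      {x : Fin N | (G.neighborSet x).ncard < 3}.ncard ≤ 4 ^ g := by
  classical
  let S : Set (SimpleGraph (Fin N)) := {G | (∀ x, (G.neighborSet x).ncard ≤ 3) ∧
      (∀ (v : Fin N) (c : G.Walk v v), c.IsCycle → g < c.length)}
  have hSne : S.Nonempty := by
    refine ⟨⊥, fun x => by simp, fun v c hc => ?_⟩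
    exfalso
    cases c with
    | nil => exact hc.ne_nil rfl
    | cons h _ => exact h
  obtain ⟨G, hGm⟩ := (Set.toFinite S).exists_maximal hSne
  have hGS : G ∈ S := hGm.prop
  refine ⟨G, hGS.1, hGS.2, ?_⟩
  rcases Set.eq_empty_or_nonempty {x : Fin N | (G.neighborSet x).ncard < 3} with h0 | ⟨x, hx⟩
  · rw [h0]; simp
  · have hsub : {x : Fin N | (G.neighborSet x).ncard < 3} ⊆ GirthAux.ball G x g := by
      intro y hy
      by_cases hxy : x = y
      · subst hxy; exact ⟨Walk.nil, by simp⟩
      by_cases hadj : G.Adj x y
      · exact ⟨Walk.cons hadj Walk.nil, by simpa using hg⟩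
      by_contra hno
      -- add the edge
      have hlt : G < G ⊔ SimpleGraph.edge x y := by
        refine lt_of_le_of_ne le_sup_left fun h => hadj ?_
        rw [h]
        exact Or.inr ((SimpleGraph.edge_adj ..).2 ⟨Or.inl ⟨rfl, rfl⟩, hxy⟩)
      refine hlt.not_ge (hGm.le_of_ge (y := G ⊔ SimpleGraph.edge x y) ?_ hlt.le)
      constructor
      · intro z
        have hadd : ∀ a b : Fin N, (G.neighborSet a).ncard < 3 →
            (G ⊔ SimpleGraph.edge a b).neighborSet a ⊆ insert b (G.neighborSet a) := by
          intro a b _ w hw
          rcases hw with hw | hw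
          · exact Or.inr hw
          · rcases ((SimpleGraph.edge_adj ..).1 hw).1 with h | h
            · exact Or.inl h.2
            · exact Or.inl (by rw [h.2, ← h.1])
        by_cases hzx : z = x
        · subst hzx
          refine (Set.ncard_le_ncard (hadd z y hx) (Set.toFinite _)).trans ?_
          refine (Set.ncard_insert_le _ _).trans ?_
          have : (G.neighborSet z).ncard < 3 := hx
          omega
        · by_cases hzy : z = y
          · subst hzy
            have h2 := hadd z x hy
            rw [SimpleGraph.edge_comm] at h2
            refine (Set.ncard_le_ncard h2 (Set.toFinite _)).trans ?_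
            refine (Set.ncard_insert_le _ _).trans ?_
            have : (G.neighborSet z).ncard < 3 := hy
            omega
          · have : (G ⊔ SimpleGraph.edge x y).neighborSet z ⊆ G.neighborSet z := by
              intro w hw
              rcases hw with hw | hw
              · exact hw
              · rcases ((SimpleGraph.edge_adj ..).1 hw).1 with h | h
                · exact absurd h.1 hzx
                · exact absurd h.1 hzy
            exact (Set.ncard_le_ncard this (Set.toFinite _)).trans (hGS.1 z)
      · intro v c hc
        have hset : ∀ e ∈ (G ⊔ SimpleGraph.edge x y).edgeSet, e ≠ s(x, y) → e ∈ G.edgeSet := by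
          intro e
          induction e with
          | _ a b =>
            intro he hne
            rcases he with he | he
            · exact he
            · exfalso
              have he' : (SimpleGraph.edge x y).Adj a b := he
              rcases ((SimpleGraph.edge_adj ..).1 he').1 with h | h
              · exact hne (by rw [h.1, h.2])
              · exact hne (by rw [h.1, h.2, Sym2.eq_swap])
        by_cases hmem : s(x, y) ∈ c.edges
        · obtain ⟨a, b, hab, p1, p2, hp⟩ := split_edge x y c hmem
          have hnd : c.edges.Nodup := hc.isCircuit.isTrail.edges_nodup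
          rw [hp] at hnd
          have hq : ∀ e ∈ (p2.append p1).edges, e ∈ G.edgeSet := by
            intro e he
            refine hset e (Walk.edges_subset_edgeSet _ he) ?_
            rintro rfl
            rw [Walk.edges_append, List.mem_append] at he
            rw [List.nodup_append, List.nodup_cons] at hnd
            rcases he with he | he
            · exact hnd.2.1.1 he
            · exact hnd.2.2 _ he _ (List.mem_cons_self) rfl
          have hlen : c.length = (p2.append p1).length + 1 := by
            rw [← Walk.length_edges c, hp, Walk.length_append, List.length_append,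
              List.length_cons, Walk.length_edges, Walk.length_edges]
            omega
          by_contra hcg
          apply hno
          rcases hab with ⟨rfl, rfl⟩ | ⟨rfl, rfl⟩
          · refine ⟨((p2.append p1).transfer G hq).reverse, ?_⟩
            rw [Walk.length_reverse, Walk.length_transfer]
            omega
          · refine ⟨(p2.append p1).transfer G hq, ?_⟩
            rw [Walk.length_transfer]
            omega
        · have hq : ∀ e ∈ c.edges, e ∈ G.edgeSet := fun e he =>
            hset e (Walk.edges_subset_edgeSet _ he) (fun h => hmem (h ▸ he))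
          have := hGS.2 v (c.transfer G hq) (hc.transfer hq)
          rwa [Walk.length_transfer] at this
    exact (Set.ncard_le_ncard hsub (Set.toFinite _)).trans (ncard_ball_le G hGS.1 x g)

end Vale.Agent.P090
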