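import Vale.Agent.P090.Comb
import Vale.Agent.P090.Girth

/-! P090, piece (E): labelled graphs sharing no long reduced word with a given finite family. -/

namespace Vale.Agent.P090

namespace IndepAux

theorem card_prescribed {H : Type*} [Fintype H] [DecidableEq H] (D g : ℕ) (e : Fin g → H)
    (he : Function.Injective e) (κ : Fin g → Fin D) :
    (Finset.univ.filter (fun φ : H → Fin D => ∀ i, φ (e i) = κ i)).card * D ^ g ≤
      Fintype.card (H → Fin D) := by
  have h1 : D ^ g = (Finset.univ : Finset (Fin g → Fin D)).card := by simp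
  rw [h1, ← Finset.card_product]
  apply Finset.card_le_card_of_injOn (fun q => Function.extend e q.2 q.1)
  · intro q _
    simp
  · rintro ⟨φ, f⟩ h2 ⟨φ', f'⟩ h3 h4
    simp only [Finset.coe_product, Set.mem_prod, Finset.coe_filter, Finset.mem_univ, true_and,
      Set.mem_ofPred_eq, Finset.coe_univ, Set.mem_univ, and_true] at h2 h3
    simp only at h4
    have h5 : f = f' := by
      funext i
      have := congrFun h4 (e i)
      rwa [he.extend_apply, he.extend_apply] at this
    have h6 : φ = φ' := by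
      funext h
      by_cases hh : ∃ i, e i = h
      · obtain ⟨i, rfl⟩ := hh
        rw [h2 i, h3 i]
      · have := congrFun h4 h
        rwa [Function.extend_apply' _ _ _ hh, Function.extend_apply' _ _ _ hh] at this
    rw [h5, h6]

theorem avoid {H ι : Type*} [Fintype H] [DecidableEq H] (D g : ℕ) (hD : 0 < D) (I : Finset ι)
    (e : ι → Fin g → H) (he : ∀ t ∈ I, Function.Injective (e t)) (κ : ι → Fin g → Fin D)
    (hI : I.card < D ^ g) : ∃ φ : H → Fin D, ∀ t ∈ I, ∃ i, φ (e t i) ≠ κ t i := by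
  by_contra hcon
  push Not at hcon
  have h1 : (Finset.univ : Finset (H → Fin D)) ⊆
      I.biUnion (fun t => Finset.univ.filter (fun φ : H → Fin D => ∀ i, φ (e t i) = κ t i)) := by
    intro φ _
    obtain ⟨t, ht, h⟩ := hcon φ
    exact Finset.mem_biUnion.mpr ⟨t, ht, by simpa using h⟩
  have h2 := (Finset.card_le_card h1).trans Finset.card_biUnion_le
  have h3 : (∑ t ∈ I, (Finset.univ.filter
      (fun φ : H → Fin D => ∀ i, φ (e t i) = κ t i)).card) * D ^ g ≤
      I.card * Fintype.card (H → Fin D) := by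
    rw [Finset.sum_mul]
    calc _ ≤ ∑ _t ∈ I, Fintype.card (H → Fin D) :=
          Finset.sum_le_sum (fun t ht => card_prescribed D g (e t) (he t ht) (κ t))
      _ = _ := by simp
  have h4 : 0 < Fintype.card (H → Fin D) := by
    have : Nonempty (Fin D) := ⟨⟨0, hD⟩⟩
    exact Fintype.card_pos
  rw [Finset.card_univ] at h2
  have h5 : Fintype.card (H → Fin D) * D ^ g ≤ I.card * Fintype.card (H → Fin D) :=
    (Nat.mul_le_mul_right _ h2).trans h3
  rw [mul_comm] at h5
  have h6 := Nat.le_of_mul_le_mul_right h5 h4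
  omega

theorem enum3 {α : Type*} [Nonempty α] (s : Set α) (hs : s.Finite) (h : s.ncard ≤ 3) :
    ∃ (idx : α → Fin 3) (en : Fin 3 → α), ∀ a ∈ s, en (idx a) = a := by
  classical
  have hinj : ∃ f : α → Fin 3, Set.InjOn f s := by
    have := hs.fintype
    have h1 : Fintype.card s ≤ Fintype.card (Fin 3) := by
      rw [Fintype.card_fin, ← Nat.card_eq_fintype_card, Nat.card_coe_set_eq]
      exact h
    obtain ⟨f⟩ := Function.Embedding.nonempty_of_card_le h1
    refine ⟨fun a => if ha : a ∈ s then f ⟨a, ha⟩ else 0, ?_⟩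
    intro a ha b hb hab
    simp only [ha, hb, dif_pos] at hab
    have := f.injective hab
    simpa using this
  obtain ⟨f, hf⟩ := hinj
  exact ⟨f, Function.invFunOn f s, fun a ha => hf.leftInvOn_invFunOn ha⟩

theorem walk_seq {k : ℕ} {X U : Type*} (s1 : Letter k → X → Option X)
    (s2 : Letter k → U → Option U) : ∀ (l : List (Letter k)) (x : X) (u : U),
    Walk2 s1 s2 l x u → ∃ (a : ℕ → X) (b : ℕ → U), a 0 = x ∧ b 0 = u ∧
      ∀ i (h : i < l.length), s1 l[i] (a i) = some (a (i + 1)) ∧ s2 l[i] (b i) = some (b (i + 1))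
  | [], x, u, _ => ⟨fun _ => x, fun _ => u, rfl, rfl, fun i h => by simp at h⟩
  | c :: l, x, u, hw => by
    obtain ⟨x', u', h1, h2, h3⟩ := hw
    obtain ⟨a, b, ha, hb, hab⟩ := walk_seq s1 s2 l x' u' h3
    refine ⟨fun n => Nat.casesOn n x a, fun n => Nat.casesOn n u b, rfl, rfl, ?_⟩
    intro i hi
    cases i with
    | zero => exact ⟨by simpa [ha] using h1, by simpa [hb] using h2⟩
    | succ i =>
      simp only [List.length_cons, Nat.add_lt_add_iff_right] at hi
      simpa using hab i hi

theorem red_get {k : ℕ} : ∀ (l : List (Letter k)), Red l →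
    ∀ i (h : i + 1 < l.length), l[i + 1] ≠ linv l[i]
  | [], _, i, h => by simp at h
  | [a], _, i, h => by simp at h
  | a :: b :: l, hr, i, h => by
    cases i with
    | zero => simpa using hr.1
    | succ i =>
      have := red_get (b :: l) hr.2 i (by simpa using h)
      simpa using this

/-- decoding of a vertex sequence -/
def decX {N : ℕ} (nb : Fin N → Fin 3 → Fin N) (x : Fin N) (π : ℕ → Fin 3) : ℕ → Fin N
  | 0 => x
  | i + 1 => nb (decX nb x π i) (π i)

/-- decoding of a sequence in `Q` -/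
def decU {k : ℕ} (Q : LG k) (en : Fin Q.N → Fin 3 → Letter k) (u : Fin Q.N) (ρ : ℕ → Fin 3) :
    ℕ → Fin Q.N
  | 0 => u
  | i + 1 => (Q.step (en (decU Q en u ρ i) (ρ i)) (decU Q en u ρ i)).getD (decU Q en u ρ i)

/-- extension of a finite sequence -/
def ext {g : ℕ} (π : Fin g → Fin 3) (i : ℕ) : Fin 3 := if h : i < g then π ⟨i, h⟩ else 0

section graph

variable {N K : ℕ} (kap : Fin 3 × Fin 3 × Fin 72 ≃ Fin K) (port : Fin N → Fin N → Fin 3)
  (col : Fin N × Fin N → Fin 72)

/-- the oriented edge -/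
def edg (x y : Fin N) : Fin N × Fin N := if x < y then (x, y) else (y, x)

/-- the letter of an edge -/
noncomputable def lett (x y : Fin N) : Letter K :=
  if x < y then (kap (port x y, port y x, col (edg x y)), true)
  else (kap (port y x, port x y, col (edg x y)), false)

theorem lett_symm (x y : Fin N) (h : x ≠ y) : lett kap port col y x = linv (lett kap port col x y) := by
  unfold lett linv edg
  rcases lt_or_gt_of_ne h with h1 | h1
  · have h2 : ¬ y < x := not_lt.mpr h1.le
    simp [h1, h2]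
  · have h2 : ¬ x < y := not_lt.mpr h1.le
    simp [h1, h2]

theorem lett_col (x y : Fin N) : (kap.symm (lett kap port col x y).1).2.2 = col (edg x y) := by
  unfold lett
  split_ifs <;> simp

theorem lett_inj (G : SimpleGraph (Fin N)) (hport : ∀ x, Set.InjOn (port x) (G.neighborSet x))
    (x : Fin N) : Set.InjOn (lett kap port col x) (G.neighborSet x) := by
  intro y hy z hz h
  apply hport x hy hz
  unfold lett at h
  split_ifs at h
  · simp only [Prod.mk.injEq, EmbeddingLike.apply_eq_iff_eq] at h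
    exact h.1.1
  · simp at h
  · simp at h
  · simp only [Prod.mk.injEq, EmbeddingLike.apply_eq_iff_eq] at h
    exact h.1.2.1

open Classical in
/-- the partial action -/
noncomputable def stp (G : SimpleGraph (Fin N)) (c : Letter K) (x : Fin N) : Option (Fin N) :=
  if h : ∃ y, G.Adj x y ∧ lett kap port col x y = c then some h.choose else none

theorem stp_iff (G : SimpleGraph (Fin N)) (hport : ∀ x, Set.InjOn (port x) (G.neighborSet x))
    (c : Letter K) (x y : Fin N) :
    stp kap port col G c x = some y ↔ G.Adj x y ∧ lett kap port col x y = c := by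
  unfold stp
  constructor
  · intro h
    split_ifs at h with h1
    have := h1.choose_spec
    simp only [Option.some.injEq] at h
    rw [h] at this
    exact this
  · intro h
    have h1 : ∃ y, G.Adj x y ∧ lett kap port col x y = c := ⟨y, h⟩
    rw [dif_pos h1]
    have h2 := h1.choose_spec
    congr 1
    exact lett_inj kap port col G hport x h2.1 h.1 (h2.2.trans h.2.symm)

theorem stp_avail (G : SimpleGraph (Fin N)) (hport : ∀ x, Set.InjOn (port x) (G.neighborSet x))
    (x : Fin N) :
    (Finset.univ.filter (fun c => (stp kap port col G c x).isSome)).card =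
      (G.neighborSet x).ncard := by
  rw [← (lett_inj kap port col G hport x).ncard_image, ← Set.ncard_coe_finset]
  apply congrArg Set.ncard
  ext c
  simp only [Finset.coe_filter, Finset.mem_univ, true_and, Set.mem_ofPred_eq, Set.mem_image,
    SimpleGraph.mem_neighborSet]
  rw [Option.isSome_iff_exists]
  constructor
  · rintro ⟨y, hy⟩
    exact ⟨y, (stp_iff kap port col G hport c x y).mp hy⟩
  · rintro ⟨y, hy⟩
    exact ⟨y, (stp_iff kap port col G hport c x y).mpr hy⟩

/-- the labelled graph -/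
noncomputable def mkLG (G : SimpleGraph (Fin N))
    (hport : ∀ x, Set.InjOn (port x) (G.neighborSet x))
    (hdeg : ∀ x, (G.neighborSet x).ncard ≤ 3) : LG K where
  N := N
  step := stp kap port col G
  inv_step := by
    intro c u v h
    rw [stp_iff kap port col G hport] at h ⊢
    refine ⟨h.1.symm, ?_⟩
    rw [lett_symm kap port col u v h.1.ne, h.2]
  deg_le := by
    intro u
    rw [stp_avail kap port col G hport]
    exact hdeg u

end graph

theorem edg_eq {N : ℕ} {x y z w : Fin N} (h : edg x y = edg z w) :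
    (x = z ∧ y = w) ∨ (x = w ∧ y = z) := by
  unfold edg at h
  split_ifs at h <;> simp only [Prod.mk.injEq] at h
  · exact Or.inl h
  · exact Or.inr h
  · exact Or.inr ⟨h.2, h.1⟩
  · exact Or.inl ⟨h.2, h.1⟩

theorem ext_apply {g : ℕ} (π : Fin g → Fin 3) (i : ℕ) (h : i < g) : ext π i = π ⟨i, h⟩ := by
  simp [ext, h]

end IndepAux

open IndepAux in
theorem exists_indep : ∃ k : ℕ, 0 < k ∧ ∀ (W : Set (LG k)), W.Finite → ∀ δ : ℝ, 0 < δ →
    ∃ (P : LG k) (g : ℕ), 0 < P.N ∧
      (((Finset.univ.filter (fun x : Fin P.N =>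
        (Finset.univ.filter (fun c => (P.step c x).isSome)).card < 3)).card : ℝ) ≤ δ * P.N) ∧
      ∀ Q ∈ W, ∀ (x : Fin P.N) (u : Fin Q.N) (l : List (Letter k)), l.length = g → Red l →
        ¬ Walk2 P.step Q.step l x u := by
  classical
  obtain ⟨K, hK, ⟨kap⟩⟩ : ∃ K, 0 < K ∧ Nonempty (Fin 3 × Fin 3 × Fin 72 ≃ Fin K) :=
    ⟨_, Fintype.card_pos, ⟨Fintype.equivFin _⟩⟩
  refine ⟨K, hK, ?_⟩
  intro W hW δ hδ
  obtain ⟨S, hS⟩ : ∃ S : Finset (LG K), ∀ Q, Q ∈ S ↔ Q ∈ W := ⟨hW.toFinset, by simp⟩
  obtain ⟨nW, hnW⟩ : ∃ nW, nW = ∑ Q ∈ S, Q.N := ⟨_, rfl⟩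
  obtain ⟨g0, hg0⟩ : ∃ g : ℕ, (1 / δ + 2) * nW < 2 ^ g :=
    pow_unbounded_of_one_lt _ (by norm_num)
  obtain ⟨g, hg⟩ : ∃ g, g = g0 + 1 := ⟨_, rfl⟩
  have hg1 : (1 / δ + 2) * nW < 2 ^ g := by
    refine hg0.trans_le ?_
    rw [hg]
    exact pow_le_pow_right₀ (by norm_num) (by omega)
  obtain ⟨N, hN⟩ : ∃ N : ℕ, N = ⌈(4 : ℝ) ^ g / δ⌉₊ + 1 := ⟨_, rfl⟩
  have hN0 : 0 < N := by omega
  have hN1 : (4 : ℝ) ^ g ≤ δ * N := by
    have h1 : (4 : ℝ) ^ g / δ ≤ N := by
      rw [hN]; push_cast
      have := Nat.le_ceil ((4 : ℝ) ^ g / δ)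
      linarith
    rw [div_le_iff₀ hδ] at h1
    linarith
  have hN2 : (N : ℝ) ≤ (1 / δ + 2) * 4 ^ g := by
    have h1 : (⌈(4 : ℝ) ^ g / δ⌉₊ : ℝ) < (4 : ℝ) ^ g / δ + 1 :=
      Nat.ceil_lt_add_one (by positivity)
    have h2 : (1 : ℝ) ≤ 4 ^ g := one_le_pow₀ (by norm_num)
    rw [hN]; push_cast
    have h3 : (1 / δ + 2) * (4 : ℝ) ^ g = 4 ^ g / δ + 2 * 4 ^ g := by ring
    rw [h3]
    linarith
  obtain ⟨G, hdeg, hgirth, hdef⟩ := exists_graph g N (by omega)
  have h1 : ∀ x : Fin N, ∃ (idx : Fin N → Fin 3) (en : Fin 3 → Fin N),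
      ∀ a ∈ G.neighborSet x, en (idx a) = a := by
    intro x
    have : Nonempty (Fin N) := ⟨x⟩
    exact enum3 _ (Set.toFinite _) (hdeg x)
  choose port nb hnb using h1
  have hport : ∀ x, Set.InjOn (port x) (G.neighborSet x) := by
    intro x a ha b hb h
    rw [← hnb x a ha, ← hnb x b hb, h]
  have h2 : ∀ (Q : LG K) (u : Fin Q.N), ∃ (idx : Letter K → Fin 3) (en : Fin 3 → Letter K),
      ∀ c, (Q.step c u).isSome → en (idx c) = c := by
    intro Q u
    have : Nonempty (Letter K) := ⟨(⟨0, hK⟩, true)⟩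
    refine enum3 {c | (Q.step c u).isSome} (Set.toFinite _) ?_
    have h3 := Q.deg_le u
    rw [← Set.ncard_coe_finset] at h3
    simpa using h3
  choose idx en hen using h2
  let X : (Σ Q : LG K, (Fin N × (Fin g → Fin 3)) × (Fin Q.N × (Fin g → Fin 3))) → ℕ → Fin N :=
    fun t => decX nb t.2.1.1 (ext t.2.1.2)
  let Lt : (Σ Q : LG K, (Fin N × (Fin g → Fin 3)) × (Fin Q.N × (Fin g → Fin 3))) → ℕ →
      Letter K :=
    fun t i => en t.1 (decU t.1 (en t.1) t.2.2.1 (ext t.2.2.2) i) (ext t.2.2.2 i)
  let I0 : Finset (Σ Q : LG K, (Fin N × (Fin g → Fin 3)) × (Fin Q.N × (Fin g → Fin 3))) :=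
    S.sigma (fun Q => Finset.univ)
  let I := I0.filter (fun t => (∀ i < g, G.Adj (X t i) (X t (i + 1))) ∧
    ∀ i, i + 2 ≤ g → X t i ≠ X t (i + 2))
  have he : ∀ t ∈ I, Function.Injective (fun i : Fin g => edg (X t i) (X t (i + 1))) := by
    intro t ht i j hij
    have ht2 := (Finset.mem_filter.mp ht).2
    have hnd := nodup_of_girth G g hgirth (X t) g le_rfl ht2.1 ht2.2
    rcases edg_eq hij with ⟨h3, _⟩ | ⟨h3, h4⟩
    · exact Fin.ext (hnd i j (by omega) (by omega) h3)
    · have h5 := hnd i (j + 1) (by omega) (by omega) h3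
      have h6 := hnd (i + 1) j (by omega) (by omega) h4
      omega
  have hI0 : I0.card = N * 3 ^ g * 3 ^ g * nW := by
    rw [Finset.card_sigma, hnW, Finset.mul_sum]
    apply Finset.sum_congr rfl
    intro Q _
    simp only [Finset.card_univ, Fintype.card_prod, Fintype.card_fin, Fintype.card_pi,
      Finset.prod_const]
    ring
  have hI : I.card < 72 ^ g := by
    have h3 : I.card ≤ N * 3 ^ g * 3 ^ g * nW := by
      rw [← hI0]; exact Finset.card_filter_le _ _
    have h4 : ((N * 3 ^ g * 3 ^ g * nW : ℕ) : ℝ) < ((72 ^ g : ℕ) : ℝ) := by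
      push_cast
      have e1 : (N : ℝ) * 3 ^ g * 3 ^ g * nW = (N : ℝ) * nW * 9 ^ g := by
        rw [show (9 : ℝ) = 3 * 3 by norm_num, mul_pow]; ring
      have e2 : (72 : ℝ) ^ g = 2 ^ g * 4 ^ g * 9 ^ g := by
        rw [← mul_pow, ← mul_pow]; norm_num
      rw [e1, e2]
      apply mul_lt_mul_of_pos_right _ (by positivity)
      calc (N : ℝ) * nW ≤ (1 / δ + 2) * 4 ^ g * nW := by gcongr
        _ = (1 / δ + 2) * nW * 4 ^ g := by ring
        _ < 2 ^ g * 4 ^ g := mul_lt_mul_of_pos_right hg1 (by positivity)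
    have h5 : N * 3 ^ g * 3 ^ g * nW < 72 ^ g := by exact_mod_cast h4
    omega
  obtain ⟨col, hcol⟩ := avoid 72 g (by norm_num) I (fun t i => edg (X t i) (X t (i + 1))) he
    (fun t i => (kap.symm (Lt t i).1).2.2) hI
  refine ⟨mkLG kap port col G hport hdeg, g, hN0, ?_, ?_⟩
  · change (((Finset.univ.filter (fun x : Fin N =>
        (Finset.univ.filter (fun c => (stp kap port col G c x).isSome)).card < 3)).card : ℝ) ≤
        δ * (N : ℝ))
    refine le_trans ?_ hN1
    have h3 : (Finset.univ.filter (fun x : Fin N =>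
        (Finset.univ.filter (fun c => (stp kap port col G c x).isSome)).card < 3)).card ≤ 4 ^ g := by
      refine le_trans (le_of_eq ?_) hdef
      rw [← Set.ncard_coe_finset]
      apply congrArg Set.ncard
      ext x
      simp only [Finset.coe_filter, Finset.mem_univ, true_and, Set.mem_ofPred_eq]
      rw [stp_avail kap port col G hport]
    exact_mod_cast h3
  · intro Q hQ x u l hl hr hw
    change Walk2 (stp kap port col G) Q.step l x u at hw
    obtain ⟨a, b, ha, hb, hab⟩ := walk_seq _ _ l x u hw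
    have hadj : ∀ i (h : i < l.length), G.Adj (a i) (a (i + 1)) ∧
        lett kap port col (a i) (a (i + 1)) = l[i] := fun i h =>
      (stp_iff kap port col G hport _ _ _).mp (hab i h).1
    let π : Fin g → Fin 3 := fun i => port (a i) (a (i + 1))
    let ρ : Fin g → Fin 3 := fun i => idx Q (b i) (l[(i : ℕ)]'(by rw [hl]; exact i.2))
    let t : (Σ Q : LG K, (Fin N × (Fin g → Fin 3)) × (Fin Q.N × (Fin g → Fin 3))) :=
      ⟨Q, ((x, π), (u, ρ))⟩
    have hX : ∀ i, i ≤ g → X t i = a i := by
      intro i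
      induction i with
      | zero => intro _; exact ha.symm
      | succ i ih =>
        intro hi
        have e1 := ih (by omega)
        have e2 : X t (i + 1) = nb (X t i) (ext π i) := rfl
        rw [e2, e1, ext_apply π i (by omega)]
        exact hnb (a i) (a (i + 1)) (hadj i (by omega)).1
    have hU : ∀ i, i ≤ g → decU Q (en Q) u (ext ρ) i = b i := by
      intro i
      induction i with
      | zero => intro _; exact hb.symm
      | succ i ih =>
        intro hi
        have e1 := ih (by omega)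
        have hil : i < l.length := by omega
        have e3 : en Q (b i) (ext ρ i) = l[i] := by
          rw [ext_apply ρ i (by omega)]
          apply hen Q (b i)
          rw [(hab i hil).2]
          rfl
        have e2 : decU Q (en Q) u (ext ρ) (i + 1) =
          (Q.step (en Q (decU Q (en Q) u (ext ρ) i) (ext ρ i))
            (decU Q (en Q) u (ext ρ) i)).getD (decU Q (en Q) u (ext ρ) i) := rfl
        rw [e2, e1, e3, (hab i hil).2]
        rfl
    have hLt : ∀ i (h : i < l.length), Lt t i = l[i] := by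
      intro i hil
      change en Q (decU Q (en Q) u (ext ρ) i) (ext ρ i) = l[i]
      rw [hU i (by omega), ext_apply ρ i (by omega)]
      apply hen Q (b i)
      rw [(hab i hil).2]
      rfl
    have htI : t ∈ I := by
      refine Finset.mem_filter.mpr ⟨?_, ?_, ?_⟩
      · exact Finset.mem_sigma.mpr ⟨(hS Q).mpr hQ, Finset.mem_univ _⟩
      · intro i hi
        rw [hX i (by omega), hX (i + 1) (by omega)]
        exact (hadj i (by omega)).1
      · intro i hi
        rw [hX i (by omega), hX (i + 2) (by omega)]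
        intro hbt
        have e1 := hadj i (by omega)
        have e2 := hadj (i + 1) (by omega)
        have e3 := red_get l hr i (by omega)
        apply e3
        rw [← e2.2, ← e1.2, ← lett_symm kap port col _ _ e1.1.ne]
        rw [hbt]
    obtain ⟨i, hi⟩ := hcol t htI
    apply hi
    have hil : (i : ℕ) < l.length := by rw [hl]; exact i.2
    rw [hLt i hil, ← (hadj i hil).2, hX i (by omega), hX (i + 1) (by omega)]
    exact (lett_col kap port col _ _).symm

end Vale.Agent.P090
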