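import Mathlib

/-! (M) The path metric generated by a symmetric weight. -/

namespace Vale.Agent.P090

open scoped NNReal

theorem exists_metric {M : Type*} (d0 : M → M → ℝ≥0) (h0 : ∀ x, d0 x x = 0)
    (hs : ∀ x y, d0 x y = d0 y x) (h1 : ∀ x y, x ≠ y → 1 ≤ d0 x y) :
    ∃ m : MetricSpace M, (∀ x y, m.dist x y ≤ d0 x y) ∧ (∀ x y, x ≠ y → 1 ≤ m.dist x y) ∧
      ∀ (f : M → ℝ) (C : ℝ), 0 ≤ C → (∀ x y, |f x - f y| ≤ C * d0 x y) →
        ∀ x y, |f x - f y| ≤ C * m.dist x y := by
  classical
  let P : PseudoMetricSpace M := PseudoMetricSpace.ofPreNNDist d0 h0 hs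
  have hle : ∀ x y, P.dist x y ≤ d0 x y := fun x y =>
    PseudoMetricSpace.dist_ofPreNNDist_le d0 h0 hs x y
  -- chains
  have hchain : ∀ (f : M → ℝ) (C : ℝ), (∀ x y, |f x - f y| ≤ C * d0 x y) →
      ∀ (l : List M) (x y : M),
        |f x - f y| ≤ C * (((x :: l).zipWith d0 (l ++ [y])).sum : ℝ≥0) := by
    intro f C hf l
    induction l with
    | nil => intro x y; simpa using hf x y
    | cons a l ih =>
      intro x y
      have h2 := ih a y
      have h3 := hf x a
      have h4 : |f x - f y| ≤ |f x - f a| + |f a - f y| := abs_sub_le _ _ _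
      have h5 : ((x :: a :: l).zipWith d0 ((a :: l) ++ [y])).sum =
          d0 x a + ((a :: l).zipWith d0 (l ++ [y])).sum := by
        simp
      rw [h5, NNReal.coe_add, mul_add]
      linarith
  have hlip : ∀ (f : M → ℝ) (C : ℝ), 0 ≤ C → (∀ x y, |f x - f y| ≤ C * d0 x y) →
      ∀ x y, |f x - f y| ≤ C * P.dist x y := by
    intro f C hC hf x y
    rcases hC.eq_or_lt with hC0 | hCpos
    · have h2 := hf x y
      rw [← hC0, zero_mul] at h2 ⊢
      exact h2
    · rw [mul_comm, ← div_le_iff₀ hCpos]
      have hd : P.dist x y = ((⨅ l : List M, ((x :: l).zipWith d0 (l ++ [y])).sum : ℝ≥0) : ℝ) :=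
        rfl
      rw [hd, NNReal.coe_iInf]
      refine le_ciInf fun l => ?_
      rw [div_le_iff₀ hCpos, mul_comm]
      exact hchain f C hf l x y
  have hone : ∀ x y, x ≠ y → 1 ≤ P.dist x y := by
    intro x y hxy
    have h2 := hlip (fun z => if z = x then 1 else 0) 1 zero_le_one (fun a b => by
      rw [one_mul]
      by_cases hab : a = b
      · subst hab; simp
      · have h3 : (1 : ℝ) ≤ d0 a b := by exact_mod_cast h1 a b hab
        by_cases ha : a = x
        · have hb : b ≠ x := fun hb => hab (ha.trans hb.symm)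
          simp [ha, hb]
          rw [← ha]; exact h3
        · by_cases hb : b = x
          · simp [ha, hb]
            rw [← hb]; exact h3
          · simp [ha, hb]) x y
    simp [hxy.symm] at h2
    exact h2
  refine ⟨{ P with
    eq_of_dist_eq_zero := fun {x y} h => by
      by_contra hxy
      have := hone x y hxy
      have h' : P.dist x y = 0 := h
      rw [h'] at this
      linarith }, hle, hone, hlip⟩

end Vale.Agent.P090
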