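import Vale.Agent.P090.Defs
import Vale.Agent.P090.Bap
import Vale.Agent.P090.Metric
import Vale.Agent.P090.Contra
import Vale.Agent.P090.Completion
import Vale.Agent.P090.FinQuot

/-! Assembly for P090. -/

namespace Vale.Agent.P090

open scoped NNReal
open Finset

/-- The vertices of all finite labelled graphs. -/
abbrev VV (k : ℕ) : Type := Σ P : LG k, Fin P.N

/-- The partial action of letters on `VV k`. -/
def vstep {k : ℕ} (c : Letter k) (u : VV k) : Option (VV k) :=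
  (u.1.step c u.2).map (fun v => ⟨u.1, v⟩)

theorem vstep_inv {k : ℕ} (c : Letter k) (u v : VV k) (h : vstep c u = some v) :
    vstep (linv c) v = some u := by
  unfold vstep at h ⊢
  rw [Option.map_eq_some_iff] at h
  obtain ⟨w, h1, h2⟩ := h
  subst h2
  have := u.1.inv_step c u.2 w h1
  simp only [this, Option.map_some]

theorem vstep_fst {k : ℕ} {c : Letter k} {u v : VV k} (h : vstep c u = some v) : v.1 = u.1 := by
  unfold vstep at h
  rw [Option.map_eq_some_iff] at h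
  obtain ⟨w, h1, h2⟩ := h
  rw [← h2]

/-- one isolated vertex -/
def isoLG (k : ℕ) : LG k where
  N := 1
  step := fun _ _ => none
  inv_step := by intro c u v h; simp at h
  deg_le := by intro u; simp

instance countable_LG (k : ℕ) : Countable (LG k) := by
  have : Function.Injective (fun P : LG k =>
      (⟨P.N, P.step⟩ : Σ N : ℕ, (Letter k → Fin N → Option (Fin N)))) := by
    intro P Q h
    obtain ⟨N, st, h1, h2⟩ := P
    obtain ⟨N', st', h1', h2'⟩ := Q
    simp only [Sigma.mk.injEq] at h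
    obtain ⟨h3, h4⟩ := h
    subst h3
    have := eq_of_heq h4
    subst this
    rfl
  exact this.countable

theorem walk2_vstep {k : ℕ} (P : LG k) (l : List (Letter k)) :
    ∀ (x : Fin P.N) (u : VV k), Walk2 P.step vstep l x u → Walk2 P.step u.1.step l x u.2 := by
  induction l with
  | nil => intro x u _; exact trivial
  | cons c l ih =>
    rintro x ⟨Q, u⟩ ⟨x', u', h1, h2, h3⟩
    unfold vstep at h2
    rw [Option.map_eq_some_iff] at h2
    obtain ⟨w, h4, h5⟩ := h2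
    subst h5
    exact ⟨x', w, h1, h4, ih _ _ h3⟩

/-- The action of the free group on a disjoint union of groups. -/
@[reducible] def sigAct {k : ℕ} (Q : ℕ → Type) [∀ n, Group (Q n)] (ψ : ∀ n, FreeGroup (Fin k) →* Q n) :
    MulAction (FreeGroup (Fin k)) (Σ n, Q n) where
  smul g s := ⟨s.1, ψ s.1 g * s.2⟩
  one_smul s := by
    show (⟨s.1, ψ s.1 1 * s.2⟩ : Σ n, Q n) = s
    rw [map_one, one_mul]
  mul_smul g h s := by
    show (⟨s.1, ψ s.1 (g * h) * s.2⟩ : Σ n, Q n) = ⟨s.1, ψ s.1 g * (ψ s.1 h * s.2)⟩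
    rw [map_mul, mul_assoc]

/-- height of block `n` -/
def hh (n : ℕ) : ℕ := 16 * (n + 1)

/-- radius of block `n` -/
def rr (n : ℕ) : ℕ := 16 * (n * hh n + 2) + hh n + 2

theorem main (k : ℕ) (hk : 0 < k)
    (hind : ∀ (W : Set (LG k)), W.Finite → ∀ δ : ℝ, 0 < δ →
      ∃ (P : LG k) (g : ℕ), 0 < P.N ∧
        (((Finset.univ.filter (fun x : Fin P.N =>
          (Finset.univ.filter (fun c => (P.step c x).isSome)).card < 3)).card : ℝ) ≤ δ * P.N) ∧
        ∀ Q ∈ W, ∀ (x : Fin P.N) (u : Fin Q.N) (l : List (Letter k)), l.length = g → Red l →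
          ¬ Walk2 P.step Q.step l x u) :
    ∃ (M : Type) (_ : MetricSpace M), Nonempty M ∧ Countable M ∧
      (∀ x y : M, x ≠ y → 1 ≤ dist x y) ∧ ∀ o : M, ¬ HasBAP (LipFree o) := by
  classical
  obtain ⟨Y, actY, ι, hι, hcomp⟩ := completion hk (V := VV k) vstep vstep_inv
  choose Q hG hF ψ hψ using fun n => exists_quot k (2 * rr n + 2)
  let actS : MulAction (FreeGroup (Fin k)) (Σ n, Q n) := sigAct Q ψ
  have smul_def : ∀ (g : FreeGroup (Fin k)) (s : Σ n, Q n), g • s = ⟨s.1, ψ s.1 g * s.2⟩ :=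
    fun g s => rfl
  let hS : (Σ n, Q n) → ℝ≥0 := fun s => (hh s.1 : ℝ≥0)
  let DS : (Σ n, Q n) → ℝ≥0 := fun s => (rr s.1 : ℝ≥0)
  have hS1 : ∀ s, 1 ≤ hS s := by
    intro s
    show (1:ℝ≥0) ≤ ((hh s.1 : ℕ) : ℝ≥0)
    have : 1 ≤ hh s.1 := by unfold hh; omega
    exact_mod_cast this
  have DS1 : ∀ s, 1 ≤ DS s := by
    intro s
    show (1:ℝ≥0) ≤ ((rr s.1 : ℕ) : ℝ≥0)
    have : 1 ≤ rr s.1 := by unfold rr; omega
    exact_mod_cast this
  obtain ⟨m, hm1, hm2, hm3⟩ := exists_metric (M := VV k × (Σ n, Q n))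
    (d0 vstep hS DS) (d0_self _ _ _) (d0_comm _ vstep_inv _ _)
    (fun x y hxy => one_le_d0 vstep hS1 DS1 hxy)
  let o0 : VV k := ⟨isoLG k, ⟨0, Nat.one_pos⟩⟩
  let s0 : Σ n, Q n := ⟨0, 1⟩
  refine ⟨VV k × (Σ n, Q n), m, ⟨(o0, s0)⟩, ?_, hm2, ?_⟩
  · have : ∀ n, Finite (Q n) := fun n => @Finite.of_fintype (Q n) (hF n)
    infer_instance
  rintro b ⟨lam, hlam1, hbap⟩
  have hlam0 : 0 ≤ lam := zero_le_one.trans hlam1
  obtain ⟨n, hn⟩ := exists_nat_ge lam
  -- the block
  set B : Set (Σ n, Q n) := {s | s.1 = n} with hBdef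
  have hBfin : B.Finite := by
    have : Finite (Q n) := @Finite.of_fintype (Q n) (hF n)
    have : B ⊆ Set.range (fun q : Q n => (⟨n, q⟩ : Σ n, Q n)) := by
      rintro ⟨n', q⟩ h
      have h' : n' = n := h
      subst h'
      exact ⟨q, rfl⟩
    exact (Set.finite_range _).subset this
  have hBne : B.Nonempty := ⟨⟨n, 1⟩, rfl⟩
  have hbound : @Bornology.IsBounded _ m.toPseudoMetricSpace.toBornology
      {p : VV k × (Σ n, Q n) | p.2 ∈ B} := by
    rw [Metric.isBounded_iff]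
    refine ⟨1 + hh n + 2 * rr n, fun p hp q hq => (hm1 p q).trans ?_⟩
    have hp' : p.2.1 = n := hp
    have hq' : q.2.1 = n := hq
    have e1 : (hS p.2 : ℝ) = hh n := by show (((hh p.2.1 : ℕ) : ℝ≥0) : ℝ) = _; rw [hp']; simp
    have e2 : (DS p.2 : ℝ) = rr n := by show (((rr p.2.1 : ℕ) : ℝ≥0) : ℝ) = _; rw [hp']; simp
    have e3 : (DS q.2 : ℝ) = rr n := by show (((rr q.2.1 : ℕ) : ℝ≥0) : ℝ) = _; rw [hq']; simp
    have p1 : (0:ℝ) ≤ hh n := Nat.cast_nonneg _
    have p2 : (0:ℝ) ≤ rr n := Nat.cast_nonneg _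
    unfold d0
    split_ifs
    · simp only [NNReal.coe_zero]; linarith
    · simp only [NNReal.coe_one]; linarith
    · rw [e1]; linarith
    · rw [NNReal.coe_add, e2, e3]; linarith
  set E : Set (VV k × (Σ n, Q n)) := (fun s => (o0, s)) '' B with hEdef
  have hEfin : E.Finite := hBfin.image _
  obtain ⟨Z, v, hv1, hv2, hv3⟩ := bap_concrete (M := VV k × (Σ n, Q n)) b hlam0 hbap
    {p | p.2 ∈ B} hbound E hEfin (ε := 1) one_pos
  -- block data
  have hrh : (hh n : ℝ) ≤ (rr n : ℝ) - 1 := by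
    have : hh n + 1 ≤ rr n := by unfold rr; omega
    have : (hh n : ℝ) + 1 ≤ rr n := by exact_mod_cast this
    linarith
  have hhpos : (0:ℝ) < hh n := by
    have : 0 < hh n := by unfold hh; omega
    exact_mod_cast this
  have hBS : ∀ s ∈ B, (hS s : ℝ) = hh n := by
    intro s hs
    show (((hh s.1 : ℕ) : ℝ≥0) : ℝ) = _
    rw [show s.1 = n from hs]; simp
  have hBD : ∀ s ∈ B, (DS s : ℝ) = rr n := by
    intro s hs
    show (((rr s.1 : ℕ) : ℝ≥0) : ℝ) = _
    rw [show s.1 = n from hs]; simp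
  let D : BlockData k (VV k) Y (Σ n, Q n) m :=
    { step := vstep
      ι := ι
      hι := hι
      hS := hS
      DS := DS
      hDi := fun g s => rfl
      hhi := fun g s => rfl
      hS1 := hS1
      dist_le := hm1
      one_le := hm2
      transfer := hm3
      B := B
      hB := fun g s hs => hs
      r := rr n
      hr := by unfold rr; omega
      free := by
        rintro ⟨n', q⟩ hs w g hg1 hg2
        have h' : n' = n := hs
        subst h'
        by_contra hne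
        rw [smul_def, smul_def] at hg2
        have h3 : ψ n' g * (ψ n' w * q) = ψ n' w * q := by
          have := Sigma.mk.inj_iff.1 hg2
          exact eq_of_heq this.2
        exact hψ n' g hne hg1 (mul_eq_right.1 h3)
      h := hh n
      hSB := hBS
      hh1 := by
        rw [div_le_div_iff₀ (by linarith) hhpos]
        linarith
      hhD := fun s hs => by rw [hBD s hs]; linarith
      hrD := fun s hs => by rw [hBD s hs]; linarith
      o := o0
      lam := lam
      ε := 1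
      lam_nonneg := hlam0
      ε_pos := one_pos
      v := v
      mass := fun p hp => hv2 p hp
      lipv := fun f K hK hf p q hp hq => (hv3 f K hK hf).1 p hp q hq
      near := fun f K hK hf s hs => (hv3 f K hK hf).2 (o0, s) ⟨s, hs, rfl⟩ hs }
  let _ : Fintype ↥D.B := hBfin.fintype
  have : Nonempty ↥D.B := ⟨⟨⟨n, 1⟩, rfl⟩⟩
  -- the independent piece
  set W : Set (LG k) := (fun z : VV k × (Σ n, Q n) => z.1.1) '' (Z : Set _) with hWdef
  have hWfin : W.Finite := Z.finite_toSet.image _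
  have hnpos : (0:ℝ) < 100 * ((n:ℝ) + 1) := by positivity
  obtain ⟨P, g, hP1, hP2, hP3⟩ := hind W hWfin (1 / (100 * ((n:ℝ) + 1))) (by positivity)
  set A : Set (VV k) := {u | u.1 ∈ W} with hAdef
  obtain ⟨c0, hc0⟩ := hcomp (Fin P.N) P.step P.inv_step A
    (by
      intro c u v hu huv
      show v.1 ∈ W
      rw [vstep_fst huv]; exact hu) g
    (by
      intro x u hu l hl hred hw
      exact hP3 u.1 hu x u.2 l hl hred (walk2_vstep P l x u hw))
  have : Nonempty (Fin P.N) := ⟨⟨0, hP1⟩⟩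
  have hlamh : lam * hh n ≤ n * hh n := mul_le_mul_of_nonneg_right hn hhpos.le
  have hlh0 : 0 ≤ lam * hh n := mul_nonneg hlam0 hhpos.le
  have hn0 : (0:ℝ) ≤ n := Nat.cast_nonneg n
  have hhn : (hh n : ℝ) = 16 * (n + 1) := by unfold hh; push_cast; ring
  have hrn : (rr n : ℝ) - 1 = 16 * (n * hh n + 2) + hh n + 1 := by
    unfold rr; push_cast; ring
  have hrpos : (0:ℝ) < (rr n : ℝ) - 1 := by linarith
  -- key numeric facts
  have q1 : 1 / ((rr n : ℝ) - 1) * (lam * hh n + 2) ≤ 1 / 16 := by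
    rw [one_div, inv_mul_eq_div, div_le_iff₀ hrpos, hrn]
    linarith
  have q1' : 0 ≤ 1 / ((rr n : ℝ) - 1) * (lam * hh n + 2) := by positivity
  have q2 : 2 / (hh n : ℝ) * (lam + 1) ≤ 1 / 8 := by
    rw [div_mul_eq_mul_div, div_le_iff₀ hhpos, hhn]
    linarith
  have q2' : 0 ≤ 2 / (hh n : ℝ) * (lam + 1) := by positivity
  have q3 : 2 / ((rr n : ℝ) - 1) * (lam * hh n + 2) ≤ 1 / 8 := by
    have : 2 / ((rr n : ℝ) - 1) * (lam * hh n + 2) =
      2 * (1 / ((rr n : ℝ) - 1) * (lam * hh n + 2)) := by ring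
    rw [this]; linarith
  have q3' : 0 ≤ 2 / ((rr n : ℝ) - 1) * (lam * hh n + 2) := by positivity
  have q4 : 2 / (hh n : ℝ) * (lam * hh n + 2) ≤ 2 * n + 1 := by
    rw [div_mul_eq_mul_div, div_le_iff₀ hhpos]
    have : (16:ℝ) ≤ hh n := by rw [hhn]; linarith
    nlinarith
  have q4' : 0 ≤ 2 / (hh n : ℝ) * (lam * hh n + 2) := by positivity
  refine block_false D P.step P.inv_step (fun x => (⟨P, x⟩ : VV k))
    (by
      intro c x x' h
      show vstep c ⟨P, x⟩ = some ⟨P, x'⟩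
      unfold vstep
      rw [h]; rfl)
    P.deg_le (1 / (100 * ((n:ℝ) + 1)))
    (by
      have : (Fintype.card (Fin P.N) : ℝ) = P.N := by rw [Fintype.card_fin]
      rw [this]
      convert hP2 using 4)
    A
    (by
      intro s hs x z hz
      show z.1.1 ∈ W
      exact ⟨z, hv1 (⟨P, x⟩, s) hs hz, rfl⟩)
    c0 (fun c x x' y hy h1 h2 => hc0 c x x' y hy h1 h2)
    _ _ _ rfl rfl rfl ?_ ?_ ?_ ?_
  · show 0 ≤ 1 - 1 / ((rr n : ℝ) - 1) * (lam * hh n + 2 * 1)
    rw [mul_one]; linarith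
  · show 0 ≤ 1 + 2 / (hh n : ℝ) * (lam * hh n + 2 * 1)
    rw [mul_one]; linarith
  · show 0 ≤ 2 / (hh n : ℝ) * (lam + 1) + 2 / ((rr n : ℝ) - 1) * (lam * hh n + 2 * 1)
    rw [mul_one]; linarith
  · show 3 * (2 / (hh n : ℝ) * (lam + 1) + 2 / ((rr n : ℝ) - 1) * (lam * hh n + 2 * 1)) <
      (1 - 1 / ((rr n : ℝ) - 1) * (lam * hh n + 2 * 1)) * (1 - 1 / (100 * ((n:ℝ) + 1))) -
        2 * (1 + 2 / (hh n : ℝ) * (lam * hh n + 2 * 1)) * (1 / (100 * ((n:ℝ) + 1)))
    rw [mul_one]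
    set a := 1 / ((rr n : ℝ) - 1) * (lam * hh n + 2)
    set b := 2 / (hh n : ℝ) * (lam + 1)
    set c := 2 / ((rr n : ℝ) - 1) * (lam * hh n + 2)
    set d := 2 / (hh n : ℝ) * (lam * hh n + 2)
    set t := 1 / (100 * ((n:ℝ) + 1)) with ht
    have t0 : 0 < t := by positivity
    have t1 : t * ((n:ℝ) + 1) = 1 / 100 := by
      rw [ht]; field_simp
    have t2 : t ≤ 1 / 100 := by
      nlinarith
    have t3 : d * t ≤ (2 * n + 1) * t := mul_le_mul_of_nonneg_right q4 t0.le
    nlinarith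

end Vale.Agent.P090
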