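import Vale.Agent.P090.Dist

/-! Pushing finitely supported measures to the completion. -/

namespace Vale.Agent.P090

open scoped NNReal

section pairing

variable {α β : Type*}

/-- integral of `σ` against the finitely supported measure `η`. -/
noncomputable def pr (σ : α → ℝ) (η : α →₀ ℝ) : ℝ := η.sum (fun y a => a * σ y)

theorem pr_eq (σ : α → ℝ) (η : α →₀ ℝ) : pr σ η = Finsupp.linearCombination ℝ σ η := by
  unfold pr
  rw [Finsupp.linearCombination_apply]
  simp only [smul_eq_mul]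

theorem pr_sub (σ : α → ℝ) (η ζ : α →₀ ℝ) : pr σ (η - ζ) = pr σ η - pr σ ζ := by
  rw [pr_eq, pr_eq, pr_eq, map_sub]

theorem pr_mapDomain (σ : β → ℝ) (f : α → β) (η : α →₀ ℝ) :
    pr σ (η.mapDomain f) = pr (fun x => σ (f x)) η := by
  rw [pr_eq, pr_eq, Finsupp.linearCombination_mapDomain]
  rfl

theorem pr_fun_sub (σ τ : α → ℝ) (η : α →₀ ℝ) :
    pr σ η - pr τ η = pr (fun x => σ x - τ x) η := by
  unfold pr
  rw [← Finsupp.sum_sub]
  congr 1
  funext y a
  ring

/-- total variation norm -/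
noncomputable def tv (η : α →₀ ℝ) : ℝ := η.sum (fun _ a => |a|)

/-- the sign pattern of `η` -/
noncomputable def sg (η : α →₀ ℝ) (y : α) : ℝ := if 0 ≤ η y then 1 else -1

theorem abs_sg (η : α →₀ ℝ) (y : α) : |sg η y| ≤ 1 := by
  unfold sg
  split_ifs <;> simp

theorem tv_eq (η : α →₀ ℝ) : tv η = pr (sg η) η := by
  unfold tv pr Finsupp.sum
  refine Finset.sum_congr rfl fun y _ => ?_
  show |η y| = η y * sg η y
  unfold sg
  by_cases h : 0 ≤ η y
  · rw [if_pos h, abs_of_nonneg h, mul_one]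
  · rw [if_neg h, abs_of_neg (not_le.1 h)]; ring

theorem pr_le_tv {σ : α → ℝ} (hσ : ∀ y, |σ y| ≤ 1) (η : α →₀ ℝ) : pr σ η ≤ tv η := by
  unfold tv pr Finsupp.sum
  refine Finset.sum_le_sum fun y _ => ?_
  show η y * σ y ≤ |η y|
  calc η y * σ y ≤ |η y * σ y| := le_abs_self _
    _ = |η y| * |σ y| := abs_mul _ _
    _ ≤ |η y| * 1 := mul_le_mul_of_nonneg_left (hσ y) (abs_nonneg _)
    _ = |η y| := mul_one _

end pairing

variable {k : ℕ} {V Y S : Type} [MulAction (FreeGroup (Fin k)) Y] [MulAction (FreeGroup (Fin k)) S]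

variable (k) in
open Classical in
/-- One atom of the push-forward. -/
noncomputable def atom (ι : V → Y) (r : ℕ) (s : S) (z : V × S) (a : ℝ) : Y →₀ ℝ :=
  if h : ∃ g : FreeGroup (Fin k), g.norm ≤ r ∧ g • z.2 = s then
    Finsupp.single (h.choose • ι z.1) (phi r h.choose.norm * a)
  else 0

variable (k) in
/-- The push-forward with cut-off. -/
noncomputable def push (ι : V → Y) (r : ℕ) (s : S) (μ : V × S →₀ ℝ) : Y →₀ ℝ :=
  μ.sum (atom k ι r s)

theorem pr_push (ι : V → Y) (r : ℕ) (s : S) (μ : V × S →₀ ℝ) (σ : Y → ℝ) :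
    pr σ (push k ι r s μ) = pr (tf k ι r s σ) μ := by
  unfold push
  rw [pr_eq, map_finsuppSum]
  unfold pr
  congr 1
  funext z a
  unfold atom tf
  split_ifs with h
  · rw [Finsupp.linearCombination_single, smul_eq_mul]; ring
  · simp

theorem push_support (ι : V → Y) (r : ℕ) (s : S) (μ : V × S →₀ ℝ) {A : Set V}
    (hA : ∀ z ∈ μ.support, z.1 ∈ A) :
    ∀ y ∈ (push k ι r s μ).support, ∃ w : FreeGroup (Fin k), ∃ u ∈ A, y = w • ι u := by
  classical
  intro y hy
  unfold push at hy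
  have := Finsupp.support_sum hy
  rw [Finset.mem_biUnion] at this
  obtain ⟨z, hz, hy2⟩ := this
  unfold atom at hy2
  split_ifs at hy2 with h
  · have := Finsupp.support_single_subset hy2
    rw [Finset.mem_singleton] at this
    exact ⟨_, z.1, hA z hz, this⟩
  · simp at hy2

end Vale.Agent.P090
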