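import Vale.Agent.P090.Comb

/-! Test functions for P090. -/

namespace Vale.Agent.P090

open scoped NNReal

section phi

/-- Radial cut-off: `1` for `j ≤ 1`, `0` for `j ≥ r`, linear in between. -/
noncomputable def phi (r j : ℕ) : ℝ := max 0 (min 1 (((r : ℝ) - j) / ((r : ℝ) - 1)))

theorem phi_nonneg (r j : ℕ) : 0 ≤ phi r j := le_max_left _ _

theorem phi_le_one (r j : ℕ) : phi r j ≤ 1 := max_le zero_le_one (min_le_left _ _)

theorem phi_zero {r : ℕ} (hr : 2 ≤ r) : phi r 0 = 1 := by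
  have h1 : (0:ℝ) < (r:ℝ) - 1 := by
    have : (2:ℝ) ≤ r := by exact_mod_cast hr
    linarith
  unfold phi
  have : (1:ℝ) ≤ ((r : ℝ) - (0:ℕ)) / ((r : ℝ) - 1) := by
    rw [le_div_iff₀ h1]; simp
  rw [min_eq_left this]; simp

theorem phi_one {r : ℕ} (hr : 2 ≤ r) : phi r 1 = 1 := by
  have h1 : (0:ℝ) < (r:ℝ) - 1 := by
    have : (2:ℝ) ≤ r := by exact_mod_cast hr
    linarith
  unfold phi
  have : (1:ℝ) ≤ ((r : ℝ) - (1:ℕ)) / ((r : ℝ) - 1) := by
    rw [le_div_iff₀ h1]; simp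
  rw [min_eq_left this]; simp

theorem phi_eq_zero {r j : ℕ} (hr : 2 ≤ r) (h : r ≤ j) : phi r j = 0 := by
  have h1 : (0:ℝ) < (r:ℝ) - 1 := by
    have : (2:ℝ) ≤ r := by exact_mod_cast hr
    linarith
  have h2 : ((r : ℝ) - j) / ((r : ℝ) - 1) ≤ 0 := by
    apply div_nonpos_of_nonpos_of_nonneg _ h1.le
    have : (r:ℝ) ≤ j := by exact_mod_cast h
    linarith
  unfold phi
  apply max_eq_left
  exact (min_le_right _ _).trans h2

theorem phi_sub_le {r i j : ℕ} (hr : 2 ≤ r) (h1 : i ≤ j + 1) (h2 : j ≤ i + 1) :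
    |phi r i - phi r j| ≤ 1 / ((r:ℝ) - 1) := by
  have hr1 : (0:ℝ) < (r:ℝ) - 1 := by
    have : (2:ℝ) ≤ r := by exact_mod_cast hr
    linarith
  unfold phi
  have e1 : |max 0 (min 1 (((r : ℝ) - i) / ((r : ℝ) - 1))) -
      max 0 (min 1 (((r : ℝ) - j) / ((r : ℝ) - 1)))| ≤
      |(min 1 (((r : ℝ) - i) / ((r : ℝ) - 1))) - (min 1 (((r : ℝ) - j) / ((r : ℝ) - 1)))| := by
    have := abs_max_sub_max_le_abs (min 1 (((r : ℝ) - i) / ((r : ℝ) - 1)))
      (min 1 (((r : ℝ) - j) / ((r : ℝ) - 1))) 0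
    rwa [max_comm, max_comm _ (0:ℝ)] at this
  have e2 : |(min 1 (((r : ℝ) - i) / ((r : ℝ) - 1))) - (min 1 (((r : ℝ) - j) / ((r : ℝ) - 1)))| ≤
      |((r : ℝ) - i) / ((r : ℝ) - 1) - ((r : ℝ) - j) / ((r : ℝ) - 1)| := by
    have := abs_min_sub_min_le_max 1 (((r : ℝ) - i) / ((r : ℝ) - 1)) 1
      (((r : ℝ) - j) / ((r : ℝ) - 1))
    simpa using this
  refine (e1.trans e2).trans ?_
  rw [← sub_div, abs_div, abs_of_pos hr1]
  apply div_le_div_of_nonneg_right _ hr1.le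
  have h1' : (i:ℝ) ≤ j + 1 := by exact_mod_cast h1
  have h2' : (j:ℝ) ≤ i + 1 := by exact_mod_cast h2
  rw [abs_le]; constructor <;> linarith

end phi

variable {k : ℕ} {V Y S : Type} [MulAction (FreeGroup (Fin k)) Y] [MulAction (FreeGroup (Fin k)) S]

theorem norm_mk_single (c : Letter k) : (FreeGroup.mk [c]).norm = 1 := by
  obtain ⟨i, b⟩ := c
  cases b
  · have : (FreeGroup.mk [(i, false)]) = (FreeGroup.of i)⁻¹ := rfl
    rw [this, FreeGroup.norm_inv_eq, FreeGroup.norm_of]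
  · exact FreeGroup.norm_of i

theorem mk_linv (c : Letter k) : FreeGroup.mk [linv c] = (FreeGroup.mk [c])⁻¹ := by
  rw [FreeGroup.inv_mk]; rfl

theorem linv_linv (c : Letter k) : linv (linv c) = c := by
  obtain ⟨i, b⟩ := c
  simp [linv]

theorem linv_injective : Function.Injective (linv : Letter k → Letter k) := fun a b h => by
  rw [← linv_linv a, h, linv_linv]

variable (k) in
/-- The `r`-freeness of the action at `s`. -/
def FreeAt (r : ℕ) (s : S) : Prop :=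
  ∀ (w g : FreeGroup (Fin k)), g.norm ≤ 2 * r + 2 → g • (w • s) = w • s → g = 1

variable (k) in
open Classical in
/-- The test function centred at `s` with sign pattern `σ`. -/
noncomputable def tf (ι : V → Y) (r : ℕ) (s : S) (σ : Y → ℝ) (z : V × S) : ℝ :=
  if h : ∃ g : FreeGroup (Fin k), g.norm ≤ r ∧ g • z.2 = s then
    phi r h.choose.norm * σ (h.choose • ι z.1)
  else 0

theorem unique_of_free {r : ℕ} {s t : S} (hs : FreeAt k r s) {g g' : FreeGroup (Fin k)}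
    (h1 : g.norm ≤ r + 1) (h2 : g'.norm ≤ r + 1) (e1 : g • t = s) (e2 : g' • t = s) : g = g' := by
  have ht : t = g⁻¹ • s := by rw [← e1, inv_smul_smul]
  have h3 : (g'⁻¹ * g).norm ≤ 2 * r + 2 := by
    refine (FreeGroup.norm_mul_le _ _).trans ?_
    rw [FreeGroup.norm_inv_eq]; omega
  have h4 : (g'⁻¹ * g) • (g⁻¹ • s) = g⁻¹ • s := by
    rw [← ht, mul_smul, e1, ← e2, inv_smul_smul]
  have := hs g⁻¹ (g'⁻¹ * g) h3 h4
  rw [inv_mul_eq_one] at this
  exact this.symm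

theorem tf_eq (ι : V → Y) {r : ℕ} (hr : 2 ≤ r) {s : S} (hs : FreeAt k r s) (σ : Y → ℝ)
    {z : V × S} {g : FreeGroup (Fin k)} (h1 : g.norm ≤ r + 1) (e1 : g • z.2 = s) :
    tf k ι r s σ z = phi r g.norm * σ (g • ι z.1) := by
  unfold tf
  split_ifs with h
  · have := unique_of_free hs (h.choose_spec.1.trans (Nat.le_succ r)) h1 h.choose_spec.2 e1
    rw [this]
  · have : r ≤ g.norm := by
      by_contra hlt
      exact h ⟨g, by omega, e1⟩
    rw [phi_eq_zero hr this, zero_mul]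

theorem tf_eq_zero (ι : V → Y) {r : ℕ} {s : S} (σ : Y → ℝ) {z : V × S}
    (h : ¬ ∃ g : FreeGroup (Fin k), g.norm ≤ r ∧ g • z.2 = s) : tf k ι r s σ z = 0 := by
  unfold tf
  rw [dif_neg h]

theorem abs_tf_le (ι : V → Y) {r : ℕ} {s : S} {σ : Y → ℝ} (hσ : ∀ y, |σ y| ≤ 1) (z : V × S) :
    |tf k ι r s σ z| ≤ 1 := by
  unfold tf
  split_ifs with h
  · rw [abs_mul, abs_of_nonneg (phi_nonneg _ _)]
    exact mul_le_one₀ (phi_le_one _ _) (abs_nonneg _) (hσ _)
  · simp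

/-- Real edges. -/
theorem tf_real (step : Letter k → V → Option V) (ι : V → Y)
    (hι : ∀ c u v, step c u = some v → FreeGroup.mk [c] • ι u = ι v)
    {r : ℕ} (hr : 2 ≤ r) {s : S} (hs : FreeAt k r s) {σ : Y → ℝ} (hσ : ∀ y, |σ y| ≤ 1)
    {c : Letter k} {u v : V} (huv : step c u = some v) (t : S) :
    |tf k ι r s σ (u, t) - tf k ι r s σ (v, FreeGroup.mk [c] • t)| ≤ 1 / ((r:ℝ) - 1) := by
  have key : ∀ g : FreeGroup (Fin k), g.norm ≤ r + 1 → g • t = s →
      (g * (FreeGroup.mk [c])⁻¹).norm ≤ r + 1 →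
      |tf k ι r s σ (u, t) - tf k ι r s σ (v, FreeGroup.mk [c] • t)| ≤ 1 / ((r:ℝ) - 1) := by
    intro g h1 h2 h3
    have e2 : (g * (FreeGroup.mk [c])⁻¹) • (FreeGroup.mk [c] • t) = s := by
      rw [mul_smul, inv_smul_smul, h2]
    rw [tf_eq ι hr hs σ (z := (u, t)) h1 h2,
      tf_eq ι hr hs σ (z := (v, FreeGroup.mk [c] • t)) h3 e2]
    have e3 : (g * (FreeGroup.mk [c])⁻¹) • ι v = g • ι u := by
      rw [← hι c u v huv, mul_smul, inv_smul_smul]
    show |phi r g.norm * σ (g • ι u) - phi r (g * (FreeGroup.mk [c])⁻¹).norm *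
      σ ((g * (FreeGroup.mk [c])⁻¹) • ι v)| ≤ _
    rw [e3, ← sub_mul, abs_mul]
    have h4 : (g * (FreeGroup.mk [c])⁻¹).norm ≤ g.norm + 1 := by
      refine (FreeGroup.norm_mul_le _ _).trans ?_
      rw [FreeGroup.norm_inv_eq, norm_mk_single]
    have h5 : g.norm ≤ (g * (FreeGroup.mk [c])⁻¹).norm + 1 := by
      have : g = (g * (FreeGroup.mk [c])⁻¹) * FreeGroup.mk [c] := by group
      calc g.norm = ((g * (FreeGroup.mk [c])⁻¹) * FreeGroup.mk [c]).norm := by rw [← this]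
        _ ≤ _ := by
          refine (FreeGroup.norm_mul_le _ _).trans ?_
          rw [norm_mk_single]
    have h6 := phi_sub_le hr h5 h4
    calc _ ≤ (1 / ((r:ℝ) - 1)) * 1 :=
          mul_le_mul h6 (hσ _) (abs_nonneg _) ((abs_nonneg _).trans h6)
      _ = _ := mul_one _
  by_cases hA : ∃ g : FreeGroup (Fin k), g.norm ≤ r ∧ g • t = s
  · obtain ⟨g, h1, h2⟩ := hA
    refine key g (by omega) h2 ?_
    refine (FreeGroup.norm_mul_le _ _).trans ?_
    rw [FreeGroup.norm_inv_eq, norm_mk_single]; omega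
  · by_cases hB : ∃ g : FreeGroup (Fin k), g.norm ≤ r ∧ g • (FreeGroup.mk [c] • t) = s
    · obtain ⟨g, h1, h2⟩ := hB
      refine key (g * FreeGroup.mk [c]) ?_ (by rw [mul_smul, h2]) ?_
      · refine (FreeGroup.norm_mul_le _ _).trans ?_
        rw [norm_mk_single]; omega
      · rw [mul_inv_cancel_right]; omega
    · rw [tf_eq_zero ι σ (z := (u, t)) hA, tf_eq_zero ι σ (z := (v, FreeGroup.mk [c] • t)) hB]
      have hr1 : (0:ℝ) < (r:ℝ) - 1 := by
        have : (2:ℝ) ≤ r := by exact_mod_cast hr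
        linarith
      simp only [sub_zero, abs_zero]
      positivity

/-- Comparison of test functions centred at neighbouring points. -/
theorem tf_shift (ι : V → Y) {r : ℕ} (hr : 2 ≤ r) {s : S} (hs : FreeAt k r s)
    {σ : Y → ℝ} (hσ : ∀ y, |σ y| ≤ 1) (c : Letter k) (z : V × S) :
    |tf k ι r (FreeGroup.mk [c] • s) σ z - tf k ι r s (fun y => σ (FreeGroup.mk [c] • y)) z| ≤
      1 / ((r:ℝ) - 1) := by
  have hs' : FreeAt k r (FreeGroup.mk [c] • s) := by
    intro w g h1 h2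
    rw [← mul_smul w] at h2
    exact hs _ g h1 h2
  have key : ∀ g : FreeGroup (Fin k), g.norm ≤ r + 1 → g • z.2 = s →
      (FreeGroup.mk [c] * g).norm ≤ r + 1 →
      |tf k ι r (FreeGroup.mk [c] • s) σ z - tf k ι r s (fun y => σ (FreeGroup.mk [c] • y)) z| ≤
      1 / ((r:ℝ) - 1) := by
    intro g h1 h2 h3
    have e2 : (FreeGroup.mk [c] * g) • z.2 = FreeGroup.mk [c] • s := by rw [mul_smul, h2]
    rw [tf_eq ι hr hs _ h1 h2, tf_eq ι hr hs' σ h3 e2]
    have e3 : (FreeGroup.mk [c] * g) • ι z.1 = FreeGroup.mk [c] • (g • ι z.1) := mul_smul _ _ _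
    rw [e3, ← sub_mul, abs_mul]
    have h4 : (FreeGroup.mk [c] * g).norm ≤ g.norm + 1 := by
      refine (FreeGroup.norm_mul_le _ _).trans ?_
      rw [norm_mk_single]; omega
    have h5 : g.norm ≤ (FreeGroup.mk [c] * g).norm + 1 := by
      have : g = (FreeGroup.mk [c])⁻¹ * (FreeGroup.mk [c] * g) := by group
      calc g.norm = ((FreeGroup.mk [c])⁻¹ * (FreeGroup.mk [c] * g)).norm := by rw [← this]
        _ ≤ _ := by
          refine (FreeGroup.norm_mul_le _ _).trans ?_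
          rw [FreeGroup.norm_inv_eq, norm_mk_single]; omega
    have h6 := phi_sub_le hr h4 h5
    calc _ ≤ (1 / ((r:ℝ) - 1)) * 1 :=
          mul_le_mul h6 (hσ _) (abs_nonneg _) ((abs_nonneg _).trans h6)
      _ = _ := mul_one _
  by_cases hA : ∃ g : FreeGroup (Fin k), g.norm ≤ r ∧ g • z.2 = s
  · obtain ⟨g, h1, h2⟩ := hA
    refine key g (by omega) h2 ?_
    refine (FreeGroup.norm_mul_le _ _).trans ?_
    rw [norm_mk_single]; omega
  · by_cases hB : ∃ g : FreeGroup (Fin k), g.norm ≤ r ∧ g • z.2 = FreeGroup.mk [c] • s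
    · obtain ⟨g, h1, h2⟩ := hB
      refine key ((FreeGroup.mk [c])⁻¹ * g) ?_ (by rw [mul_smul, h2, inv_smul_smul]) ?_
      · refine (FreeGroup.norm_mul_le _ _).trans ?_
        rw [FreeGroup.norm_inv_eq, norm_mk_single]; omega
      · rw [mul_inv_cancel_left]; omega
    · rw [tf_eq_zero ι σ hB, tf_eq_zero ι _ hA]
      have hr1 : (0:ℝ) < (r:ℝ) - 1 := by
        have : (2:ℝ) ≤ r := by exact_mod_cast hr
        linarith
      simp only [sub_zero, abs_zero]
      positivity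

end Vale.Agent.P090
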